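import Vale.Agent.P073Y.Nt.Sk
import Vale.Agent.P073Y.Fl.All
import Vale.Agent.P073Y.Bd.Bas

/-!
# Straightening of both families when only the levels are matched on the boundary
-/

open Set Metric Topology Filter

namespace P073.Nt

open P073.Bd (Band I cl Comm)
open P073.Fl (lev band Both Same Cfg)

namespace FlatbAux

open P073.Bd P073.Fl.FillcAux

variable {E : Type} [NormedAddCommGroup E] [NormedSpace ℝ E] {b : Band E} {C : Set E}

/-- the level function, strictly larger than one in absolute value off the band -/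
noncomputable def w (b : Band E) (x : E) : ℝ := b.u x * (1 + infDist x b.B)

omit [NormedSpace ℝ E] in
theorem w_in {x : E} (hx : x ∈ b.B) : w b x = b.u x := by
  rw [w, infDist_zero_of_mem hx, add_zero, mul_one]

theorem w_out (h : b.On C) (hne : b.B.Nonempty) {x : E} (hx : x ∈ C) (hn : x ∉ b.B) :
    (b.u x = 1 ∧ 1 < w b x) ∨ (b.u x = -1 ∧ w b x < -1) := by
  have hd : 0 < infDist x b.B := (h.ok.cpt.isClosed.notMem_iff_infDist_pos hne).1 hn
  rcases h.out x hx hn with e | e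
  · exact Or.inl ⟨e, by rw [w, e]; linarith⟩
  · exact Or.inr ⟨e, by rw [w, e]; linarith⟩

theorem same_of_gt {a a' : ℝ} (ha : 1 < a) (ha' : 1 < a') : Same 1 a a' := by
  have := same_neg (same_of_lt (neg_lt_neg ha) (neg_lt_neg ha'))
  rwa [neg_neg, neg_neg] at this

theorem same_gt {a a' : ℝ} (h : Same 1 a a') : 1 < a ↔ 1 < a' := by
  rw [← not_le, ← not_le, (h 1 ⟨by norm_num, le_rfl⟩).1]

theorem same_of (h : b.On C) (hne : b.B.Nonempty) {x : E} (hx : x ∈ C) {a : ℝ}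
    (h1 : x ∈ b.B ↔ |a| ≤ 1) (h2 : b.u x = cl a) : Same 1 a (w b x) := by
  by_cases hb : x ∈ b.B
  · rw [w_in hb, h2, Bas1.cl_of_mem (abs_le.1 (h1.1 hb))]
    exact fun _ _ => ⟨Iff.rfl, Iff.rfl⟩
  · have h3 : 1 < |a| := not_le.1 fun h3 => hb (h1.2 h3)
    rcases lt_abs.1 h3 with h4 | h4
    · rw [Bas1.cl_of_ge h4.le] at h2
      refine same_of_gt h4 ((w_out h hne hx hb).resolve_right fun e => ?_).2
      linarith [e.1]
    · rw [Bas1.cl_of_le (by linarith)] at h2
      refine same_of_lt (by linarith) ((w_out h hne hx hb).resolve_left fun e => ?_).2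
      linarith [e.1]

theorem of_same (h : b.On C) (hne : b.B.Nonempty) {x : E} (hx : x ∈ C) {a : ℝ}
    (hs : Same 1 a (w b x)) : (x ∈ b.B ↔ |a| ≤ 1) ∧ b.u x = cl a := by
  by_cases hb : x ∈ b.B
  · have hI := h.ok.urange x hb
    rw [w_in hb] at hs
    obtain rfl : a = b.u x := le_antisymm ((hs _ hI).1.2 le_rfl) ((hs _ hI).2.2 le_rfl)
    exact ⟨iff_of_true hb (abs_le.2 hI), (Bas1.cl_of_mem hI).symm⟩
  · rcases w_out h hne hx hb with e | e
    · have h1 := (same_gt hs).2 e.2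
      exact ⟨iff_of_false hb (not_le.2 (lt_abs.2 (Or.inl h1))), by rw [e.1, Bas1.cl_of_ge h1.le]⟩
    · have h1 := (same_lt one_pos hs).2 e.2
      exact ⟨iff_of_false hb (not_le.2 (lt_abs.2 (Or.inr (by linarith)))),
        by rw [e.1, Bas1.cl_of_le h1.le]⟩

theorem w_spec (h : b.On C) (hne : b.B.Nonempty) {x : E} (hx : x ∈ C) :
    (x ∈ b.B ↔ |w b x| ≤ 1) ∧ b.u x = cl (w b x) :=
  of_same h hne hx fun _ _ => ⟨Iff.rfl, Iff.rfl⟩

theorem band_eq (h : b.On C) (hne : b.B.Nonempty) : band C (w b) 1 = b.B :=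
  Set.ext fun _ => ⟨fun hx => (w_spec h hne hx.1).1.2 hx.2,
    fun hx => ⟨h.sub hx, (w_spec h hne (h.sub hx)).1.1 hx⟩⟩

theorem zero_iff (h : b.On C) (hne : b.B.Nonempty) {x : E} (hx : x ∈ C) :
    w b x = 0 ↔ x ∈ b.W := by
  refine ⟨fun e => ?_, fun e => (w_in e.1).trans e.2⟩
  have hb : x ∈ b.B := (w_spec h hne hx).1.2 (by rw [e, abs_zero]; exact zero_le_one)
  exact ⟨hb, (w_in hb).symm.trans e⟩

theorem lev_eq (h : b.On C) (hne : b.B.Nonempty) {X : Set E} (hX : X ⊆ C) :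
    lev X (w b) 0 = b.W ∩ X :=
  Set.ext fun _ => ⟨fun hx => ⟨(zero_iff h hne (hX hx.1)).1 hx.2, hx.1⟩,
    fun hx => ⟨hx.2, (zero_iff h hne (hX hx.2)).2 hx.1⟩⟩

theorem same_zero {a a' : ℝ} (h : Same 1 a a') : a = 0 ↔ a' = 0 := by
  obtain ⟨h1, h2⟩ := h 0 ⟨by norm_num, by norm_num⟩
  rw [le_antisymm_iff, le_antisymm_iff, h1, h2]

theorem abs_div_le {a lam : ℝ} (h : 0 < lam) : |a| ≤ lam ↔ |a / lam| ≤ 1 := by
  rw [abs_div, abs_of_pos h, div_le_one h]

theorem co_col {k : Fin 3} (h : k ≠ 2) : Fl.co (decide (k = 1)) = k := by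
  revert k; decide

theorem col_ne {k l : Fin 3} (h : k ≠ 2) (h' : l ≠ 2) : decide (k = 1) = decide (l = 1) ↔ k = l := by
  revert k l; decide

theorem third {k l : Fin 3} (h : k ≠ 2) (h' : l ≠ 2) (hn : k ≠ l) (m : Fin 3) :
    m = k ∨ m = l ∨ m = 2 := by
  revert k l m; decide

end FlatbAux

open FlatbAux P073.Bd P073.Fl.FillcAux

theorem flatb : FLATB := by
  intro E _ _ _ ι _ C S lo hi lam b t co φ hC hlt hlam hin hpair hb
  classical
  have := Fintype.ofFinite ι
  have hne : ∀ i, (b i).B.Nonempty := fun i =>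
    (Cut.KeepAux.ne (hb i).2.2.1).mono (Bas2.W_sub _)
  have hon : ∀ i, (b i).On C := fun i => (hb i).1
  have hφ : ∀ x ∈ S, ∀ i, Same 1 ((φ.toFun x (co i) - t i) / lam) (w (b i) x) := fun x hx i =>
    same_of (hon i) (hne i) (hC.1 hx) (((hb i).2.2.2 x hx).1.trans (abs_div_le hlam))
      ((hb i).2.2.2 x hx).2
  have hle : lo ≤ hi := fun k => (hlt k).le
  have hfr : ∀ y, y ∈ frontier (Icc lo hi) ↔ y ∈ Icc lo hi ∧ ∃ i, y i = lo i ∨ y i = hi i :=
    (Cut.box hlt).2.1
  have hlo : ∀ y ∈ frontier (Icc lo hi), ∀ i, y (co i) = lo (co i) →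
      w (b i) (φ.invFun y) < -1 := fun y hy i e => by
    refine (same_lt one_pos (hφ _ (φ.mapsTo_inv hy) i)).1 ?_
    rw [φ.right_inv hy, e, div_lt_iff₀ hlam]
    linarith [(hin i).2.1]
  have hhi : ∀ y ∈ frontier (Icc lo hi), ∀ i, y (co i) = hi (co i) →
      1 < w (b i) (φ.invFun y) := fun y hy i e => by
    refine (same_gt (hφ _ (φ.mapsTo_inv hy) i)).1 ?_
    rw [φ.right_inv hy, e, lt_div_iff₀ hlam]
    linarith [(hin i).2.2]
  have hmid : ∀ x ∈ S, ∀ i, w (b i) x = 0 ↔ φ.toFun x (co i) = t i := fun x hx i => by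
    rw [← same_zero (hφ x hx i), div_eq_zero_iff, or_iff_left hlam.ne', sub_eq_zero]
  have hti : ∀ i, lo (co i) < t i ∧ t i < hi (co i) := fun i =>
    ⟨by linarith [(hin i).2.1], by linarith [(hin i).2.2]⟩
  have hcfg : Cfg C S 1 Finset.univ (fun i => decide (co i = 1)) fun i => w (b i) := by
    refine ⟨hC, one_pos, fun k _ => (hon k).upl.1.mul (by fun_prop), fun k _ => ?_,
      fun k _ => ?_, fun k _ => ?_, fun k _ j _ hkj => ?_⟩
    · rw [lev_eq (hon k) (hne k) Subset.rfl, lev_eq (hon k) (hne k) hC.1,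
        inter_eq_left.2 ((Bas2.W_sub _).trans (hon k).sub)]
      exact (hb k).2.2.1
    · have h1 := (hfr lo).2 ⟨⟨le_rfl, hle⟩, 0, Or.inl rfl⟩
      have h2 := (hfr hi).2 ⟨⟨hle, le_rfl⟩, 0, Or.inr rfl⟩
      exact ⟨⟨_, φ.mapsTo_inv h1, hlo _ h1 k rfl⟩, _, φ.mapsTo_inv h2, hhi _ h2 k rfl⟩
    · obtain ⟨Φ, hΦ, -⟩ := Bas2.chart (hon k).ok
      have e1 : lev C (w (b k)) 0 = (b k).W := by
        rw [lev_eq (hon k) (hne k) Subset.rfl, inter_eq_left.2 ((Bas2.W_sub _).trans (hon k).sub)]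
      refine ⟨Φ.cast (by rw [e1]) (band_eq (hon k) (hne k)).symm, fun x hx => ?_⟩
      rw [e1] at hx
      simp only [ConHomeo.cast_toFun, hΦ]
      refine ⟨Bas2.M_zero (hon k).ok hx, fun r hr => ?_⟩
      obtain ⟨m1, m2⟩ := (hon k).ok.Mmem x hx.1 r hr
      refine ⟨(w_in m1).trans m2, Bas2.keeps_iff (hon k).ok (hb k).2.1 hx.1 hr, fun j _ hc => ?_⟩
      have hjk : k ≠ j := fun e => hc (by rw [e])
      obtain ⟨s1, s2⟩ := w_spec (hon j) (hne j) ((hon k).sub m1)
      refine same_of (hon j) (hne j) ((hon k).sub hx.1)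
        (((hpair k j hjk).1 x hx.1 r hr).1.symm.trans s1) ?_
      rw [← s2, Bas1.comm_u (hon k).ok (hon k).sub (hon j) (hpair k j hjk).1 x hx.1 r hr]
    · by_cases hco : co k = co j
      · left
        rw [band_eq (hon k) (hne k), band_eq (hon j) (hne j)]
        exact ((hpair k j hkj).2.1 hco).1
      refine Or.inr ⟨fun e => hco ((col_ne (hin k).1 (hin j).1).1 e), ?_, ?_⟩
      · obtain ⟨p, hp, q, hq, ha⟩ := (hpair k j hkj).2.2 hco
        have e1 : lev (lev C (w (b k)) 0) (w (b j)) 0 = (b k).W ∩ (b j).W := by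
          ext x
          constructor
          · exact fun hx => ⟨(zero_iff (hon k) (hne k) hx.1.1).1 hx.1.2,
              (zero_iff (hon j) (hne j) hx.1.1).1 hx.2⟩
          · intro hx
            have hxC := (hon k).sub hx.1.1
            exact ⟨⟨hxC, (zero_iff (hon k) (hne k) hxC).2 hx.1⟩, (zero_iff (hon j) (hne j) hxC).2 hx.2⟩
        have hT : ∀ x ∈ S, x ∈ (b k).W ∩ (b j).W → x ∈ lev (lev S (w (b k)) 0) (w (b j)) 0 :=
          fun x hx hx' => ⟨⟨hx, (zero_iff (hon k) (hne k) (hC.1 hx)).2 hx'.1⟩,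
            (zero_iff (hon j) (hne j) (hC.1 hx)).2 hx'.2⟩
        have h2 : ∀ x ∈ lev (lev S (w (b k)) 0) (w (b j)) 0,
            φ.toFun x 2 = lo 2 ∨ φ.toFun x 2 = hi 2 := by
          intro x hx
          obtain ⟨-, m, hm⟩ := (hfr _).1 (φ.mapsTo hx.1.1)
          rcases third (hin k).1 (hin j).1 hco m with rfl | rfl | rfl
          · rw [(hmid x hx.1.1 k).1 hx.1.2] at hm
            exact absurd hm (not_or.2 ⟨(hti k).1.ne', (hti k).2.ne⟩)
          · rw [(hmid x hx.1.1 j).1 hx.2] at hm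
            exact absurd hm (not_or.2 ⟨(hti j).1.ne', (hti j).2.ne⟩)
          · exact hm
        have h3 : ∀ x ∈ lev (lev S (w (b k)) 0) (w (b j)) 0,
            ∀ y ∈ lev (lev S (w (b k)) 0) (w (b j)) 0, φ.toFun x 2 = φ.toFun y 2 → x = y := by
          intro x hx y hy e
          refine φ.injOn hx.1.1 hy.1.1 (funext fun m => ?_)
          rcases third (hin k).1 (hin j).1 hco m with rfl | rfl | rfl
          · rw [(hmid x hx.1.1 k).1 hx.1.2, (hmid y hy.1.1 k).1 hy.1.2]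
          · rw [(hmid x hx.1.1 j).1 hx.2, (hmid y hy.1.1 j).1 hy.2]
          · exact e
        have hp' := hT p hp ha.left_mem
        have hq' := hT q hq ha.right_mem
        have e2 : lev (lev S (w (b k)) 0) (w (b j)) 0 = {p, q} := by
          refine Subset.antisymm (fun x hx => ?_) (pair_subset hp' hq')
          have hpq : φ.toFun p 2 ≠ φ.toFun q 2 := fun e => ha.ne (h3 p hp' q hq' e)
          by_contra hn
          rw [mem_insert_iff, mem_singleton_iff, not_or] at hn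
          have n1 : φ.toFun x 2 ≠ φ.toFun p 2 := fun e => hn.1 (h3 x hx p hp' e)
          have n2 : φ.toFun x 2 ≠ φ.toFun q 2 := fun e => hn.2 (h3 x hx q hq' e)
          rcases h2 x hx with a | a <;> rcases h2 p hp' with c | c <;>
            rcases h2 q hq' with d | d <;>
            first | exact n1 (a.trans c.symm) | exact n2 (a.trans d.symm) | exact hpq (c.trans d.symm)
        rw [e1, e2]
        exact ha.conBall
      · have hu : ∀ y ∈ Icc lo hi, Function.update y (co k) (t k) ∈ Icc lo hi := fun y hy =>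
          ⟨le_update_iff.2 ⟨(hti k).1.le, fun m _ => hy.1 m⟩,
            update_le_iff.2 ⟨(hti k).2.le, fun m _ => hy.2 m⟩⟩
        have h1 := (hfr _).2 ⟨hu lo ⟨le_rfl, hle⟩, 2,
          Or.inl (Function.update_of_ne (hin k).1.symm _ _)⟩
        have h2 := (hfr _).2 ⟨hu hi ⟨hle, le_rfl⟩, 2,
          Or.inr (Function.update_of_ne (hin k).1.symm _ _)⟩
        refine ⟨⟨_, ⟨φ.mapsTo_inv h1, (hmid _ (φ.mapsTo_inv h1) k).2 ?_⟩,
          hlo _ h1 j (Function.update_of_ne (Ne.symm hco) _ _)⟩,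
          _, ⟨φ.mapsTo_inv h2, (hmid _ (φ.mapsTo_inv h2) k).2 ?_⟩,
          hhi _ h2 j (Function.update_of_ne (Ne.symm hco) _ _)⟩
        · rw [φ.right_inv h1, Function.update_self]
        · rw [φ.right_inv h2, Function.update_self]
  obtain ⟨G, hG, hs⟩ := Fl.flatten t (fun _ => lam) φ hlt
    (fun k _ => by
      rw [co_col (hin k).1, one_mul]
      exact ⟨hlam, (hin k).2⟩)
    (fun k _ j _ hkj e => by
      have h1 := ((hpair k j hkj).2.1 ((col_ne (hin k).1 (hin j).1).1 e)).2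
      rcases lt_abs.1 h1 with h2 | h2
      · right; linarith
      · left; linarith) hcfg
    (fun x hx k _ => by rw [co_col (hin k).1]; exact hφ x hx k)
  refine ⟨G, hG, fun i x hx => ?_⟩
  have h1 := hs x hx i (Finset.mem_univ i)
  rw [co_col (hin i).1] at h1
  obtain ⟨h2, h3⟩ := of_same (hon i) (hne i) hx h1
  exact ⟨h2.trans (abs_div_le hlam).symm, h3⟩

end P073.Nt
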