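import Vale.Agent.P073Y.Bd.Sk
import Vale.Agent.P073Y.Fl.Sk

/-!
# Natural bands: statements
-/

open Set Metric Topology Filter

namespace P073.Nt

open P073.Bd (Band I cl Comm Ext)
open P073.Fl (lev Both)

section Defs

variable {E : Type} [NormedAddCommGroup E] [NormedSpace ℝ E] {ι : Type}

/-- the band is the set where `|f| ≤ 1` and its level function is the clamped `f` -/
structure Nb (b : Band E) (X : Set E) (f : E → ℝ) : Prop where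
  on : b.On X
  mem : ∀ x ∈ X, x ∈ b.B ↔ |f x| ≤ 1
  u_eq : ∀ x ∈ X, b.u x = cl (f x)

/-- the moves of `b` are those of `a` on the band `a` -/
def Agree (b a : Band E) : Prop := ∀ x ∈ a.B, ∀ s ∈ I, b.M (x, s) = a.M (x, s)

/-- natural bands on `S` extend to `C` -/
def Ex1 (C S : Set E) (f : E → ℝ) : Prop :=
  ∀ a : Band E, Nb a S f → ∃ b : Band E, Nb b C f ∧ Agree b a

/-- families of natural bands on `S` extend to commuting natural bands on `C` -/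
def Good (C S : Set E) (f : ι → E → ℝ) : Prop :=
  ∀ a : ι → Band E, (∀ i, Nb (a i) S (f i)) →
    ∃ b : ι → Band E, (∀ i, Nb (b i) C (f i) ∧ Agree (b i) (a i)) ∧
      ∀ i j, i ≠ j → Comm (b i) (b j)

/-- in a chart the cell is convex and the functions are affine -/
def Lin (C S : Set E) (f : ι → E → ℝ) : Prop :=
  ∃ (Q : Set E3) (φ : ConHomeo C Q) (l : ι → E3 →ᵃ[ℝ] ℝ), Convex ℝ Q ∧
    φ.toFun '' S = intrinsicFrontier ℝ Q ∧ ∀ i, ∀ x ∈ C, f i x = l i (φ.toFun x)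

/-- the band of `f` misses `C` -/
def Off (C : Set E) (f : E → ℝ) : Prop := ∀ x ∈ C, 1 < |f x|

/-- a finite disjoint union of proper `n`-balls -/
def Balls (n : ℕ) (T S : Set E) : Prop := ∃ 𝒟 : Finset (Set E), T = ⋃ D ∈ 𝒟, D ∧
  (∀ D ∈ 𝒟, ∀ D' ∈ 𝒟, D ≠ D' → Disjoint D D') ∧ ∀ D ∈ 𝒟, ConBall n D (D ∩ S)

end Defs

/-! ### bands -/

/-- gluing of natural bands -/
def NGLUE : Prop := ∀ {E : Type} [NormedAddCommGroup E] [NormedSpace ℝ E] [FiniteDimensional ℝ E]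
  {π : Type} [Finite π] (X : π → Set E) (b : π → Band E) (f : E → ℝ),
  (∀ a, IsClosed (X a) ∧ Nb (b a) (X a) f) →
  (∀ a a', ∀ x ∈ (b a).B, x ∈ (b a').B → ∀ s ∈ I, (b a).M (x, s) = (b a').M (x, s)) →
  ∃ g : Band E, Nb g (⋃ a, X a) f ∧ ∀ a, Agree g (b a)

/-- the band of a level preserving chart -/
def OFCH : Prop := ∀ {E F : Type} [NormedAddCommGroup E] [NormedSpace ℝ E] [FiniteDimensional ℝ E]
  [NormedAddCommGroup F] [NormedSpace ℝ F] [FiniteDimensional ℝ F] {D : Set F} {X : Set E}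
  {f : E → ℝ} (Θ : ConHomeo (D ×ˢ I) {x ∈ X | |f x| ≤ 1}),
  IsCompact {x ∈ X | |f x| ≤ 1} → LocCone {x ∈ X | |f x| ≤ 1} →
  PLOn (fun x => cl (f x)) X → (∀ q ∈ D ×ˢ I, f (Θ.toFun q) = q.2) →
  ∃ b : Band E, Nb b X f ∧ ∀ q, b.M q = Θ.toFun ((Θ.invFun q.1).1, q.2)

/-- the moves are determined over a finite part of the wall -/
def UNQ : Prop := ∀ {E : Type} [NormedAddCommGroup E] [NormedSpace ℝ E] {a b : Band E}
  {Y : Set E}, a.Ok → b.Ok → a.Keeps Y → b.Keeps Y →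
  (∀ x ∈ Y, (x ∈ a.B ↔ x ∈ b.B) ∧ (x ∈ a.B → a.u x = b.u x)) → (a.W ∩ Y).Finite →
  ∀ x ∈ a.B, x ∈ Y → ∀ s ∈ I, a.M (x, s) = b.M (x, s)

/-- local to global -/
def NATG : Prop := ∀ {E : Type} [NormedAddCommGroup E] [NormedSpace ℝ E] [FiniteDimensional ℝ E]
  {ι : Type} (K : RCx E) [Finite K.ι] (fro : Set K.ι) {U : Set E} (f : ι → E → ℝ)
  (r : ι → Band E), (∀ c ∈ fro, ∀ j, K.cell j ⊆ K.cell c → j ∈ fro ∨ K.cell j ⊆ U) →
  IsClosed U → K.Sub (K.carrier ∩ U) →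
  (∀ i, Nb (r i) U (f i) ∧ ∀ c, (r i).Keeps (K.cell c)) → (∀ i j, i ≠ j → Comm (r i) (r j)) →
  (∀ c ∈ fro, ¬ K.cell c ⊆ U → Good (K.cell c) (K.bd c) f) →
  ∃ b : ι → Band E, (∀ i, Nb (b i) (U ∪ ⋃ c ∈ fro, K.cell c) (f i) ∧
    (∀ c, (b i).Keeps (K.cell c)) ∧ Ext (b i) (r i) U) ∧ ∀ i j, i ≠ j → Comm (b i) (b j)

/-- local to global, nothing prescribed -/
def NATG0 : Prop := ∀ {E : Type} [NormedAddCommGroup E] [NormedSpace ℝ E] [FiniteDimensional ℝ E]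
  {ι : Type} (K : RCx E) [Finite K.ι] (fro : Set K.ι) (f : ι → E → ℝ),
  (∀ c ∈ fro, ∀ j, K.cell j ⊆ K.cell c → j ∈ fro) →
  (∀ c ∈ fro, Good (K.cell c) (K.bd c) f) →
  ∃ b : ι → Band E, (∀ i, Nb (b i) (⋃ c ∈ fro, K.cell c) (f i) ∧
    ∀ c, (b i).Keeps (K.cell c)) ∧ ∀ i j, i ≠ j → Comm (b i) (b j)

/-! ### cells with given local bands -/

/-- disjoint bands -/
def GDISJ : Prop := ∀ {E : Type} [NormedAddCommGroup E] [NormedSpace ℝ E] [FiniteDimensional ℝ E]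
  {ι : Type} {C S : Set E} {f : ι → E → ℝ}, (∀ i, Ex1 C S (f i)) →
  (∀ i j, i ≠ j → ∀ x ∈ C, |f i x| ≤ 1 → 1 < |f j x|) → Good C S f

/-- the band misses the cell -/
def EXOFF : Prop := ∀ {E : Type} [NormedAddCommGroup E] [NormedSpace ℝ E] {C S : Set E}
  {f : E → ℝ}, S ⊆ C → ConicalSet C → ContinuousOn f C → Off C f → Ex1 C S f

/-- a local band over proper balls -/
def EXLOC : Prop := ∀ {E : Type} [NormedAddCommGroup E] [NormedSpace ℝ E] [FiniteDimensional ℝ E]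
  {n : ℕ} {C S : Set E} {f : E → ℝ} {l : Band E}, S ⊆ C →
  Nb l C f → l.Keeps S → Balls n l.W S → Ex1 C S f

/-- commuting local bands with finite traces on the boundary -/
def GLOC : Prop := ∀ {E : Type} [NormedAddCommGroup E] [NormedSpace ℝ E] {ι : Type}
  {C S : Set E} {f : ι → E → ℝ} (l : ι → Band E), S ⊆ C →
  (∀ i, Nb (l i) C (f i) ∧ (l i).Keeps S ∧ ((l i).W ∩ S).Finite) →
  (∀ i j, i ≠ j → Comm (l i) (l j)) → Good C S f

/-! ### convex cells -/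

/-- the dimension of a ball -/
def DIMU : Prop := ∀ {E : Type} [NormedAddCommGroup E] [NormedSpace ℝ E] [FiniteDimensional ℝ E]
  {m n : ℕ} {C B B' : Set E}, ConBall m C B → ConBall n C B' → m = n

/-- relative interiors -/
def RINT : Prop := ∀ {E : Type} [NormedAddCommGroup E] [NormedSpace ℝ E] [FiniteDimensional ℝ E]
  {Q : Set E}, Convex ℝ Q →
  (∀ y ∈ Q, (∀ x ∈ Q, ∃ t : ℝ, 1 < t ∧ AffineMap.lineMap x y t ∈ Q) →
    y ∈ intrinsicInterior ℝ Q) ∧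
  intrinsicInterior ℝ (Q ×ˢ I) = intrinsicInterior ℝ Q ×ˢ Ioo (-1) 1 ∧
  ∀ (l : E →ᵃ[ℝ] ℝ),
    (∀ a, (∃ x ∈ Q, l x < a) → (∃ x ∈ Q, a < l x) →
      (intrinsicInterior ℝ {x ∈ Q | l x = a}).Nonempty ∧
      intrinsicInterior ℝ {x ∈ Q | l x = a} = {x ∈ intrinsicInterior ℝ Q | l x = a} ∧
      intrinsicInterior ℝ {x ∈ Q | a ≤ l x} = {x ∈ intrinsicInterior ℝ Q | a < l x}) ∧
    (Both Q l 1 →
      intrinsicInterior ℝ {x ∈ Q | |l x| ≤ 1} = {x ∈ intrinsicInterior ℝ Q | |l x| < 1})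

/-- coning from relative interior points -/
def CEXT : Prop := ∀ {E F : Type} [NormedAddCommGroup E] [NormedSpace ℝ E] [FiniteDimensional ℝ E]
  [NormedAddCommGroup F] [NormedSpace ℝ F] [FiniteDimensional ℝ F] {Q : Set E} {Q' : Set F}
  {p : E} {p' : F} (θ : ConHomeo (intrinsicFrontier ℝ Q) (intrinsicFrontier ℝ Q')),
  IsCompact Q → Convex ℝ Q → p ∈ intrinsicInterior ℝ Q → IsCompact Q' → Convex ℝ Q' →
  p' ∈ intrinsicInterior ℝ Q' →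
  ∃ Θ : ConHomeo Q Q', EqOn Θ.toFun θ.toFun (intrinsicFrontier ℝ Q) ∧
    ∀ (l : E →ᵃ[ℝ] ℝ) (l' : F →ᵃ[ℝ] ℝ), l' p' = l p →
      (∀ x ∈ intrinsicFrontier ℝ Q, l' (θ.toFun x) = l x) → ∀ x ∈ Q, l' (Θ.toFun x) = l x

/-- extension over a convex cell -/
def EXCVX : Prop := ∀ {E : Type} [NormedAddCommGroup E] [NormedSpace ℝ E] [FiniteDimensional ℝ E]
  {Q : Set E} (l : E →ᵃ[ℝ] ℝ), IsCompact Q → Convex ℝ Q → LocCone Q → Both Q l 1 →
  Ex1 Q (intrinsicFrontier ℝ Q) l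

/-- extension over a convex cell with prescribed translations on parallelograms -/
def EXZ : Prop := ∀ {E : Type} [NormedAddCommGroup E] [NormedSpace ℝ E] [FiniteDimensional ℝ E]
  {κ : Type} (l : E →ᵃ[ℝ] ℝ) (m : κ → E →ᵃ[ℝ] ℝ) (v w : κ → E) (s : Finset κ) {Q : Set E}
  (a : Band E), IsCompact Q → Convex ℝ Q → LocCone Q → Both Q l 1 →
  Nb a (intrinsicFrontier ℝ Q) l →
  (∀ j ∈ s, ∀ x ∈ Q, |l x| ≤ 1 → |m j x| ≤ 1 →
    (l.linear (v j) = 1 ∧ (m j).linear (v j) = 0 ∧ l.linear (w j) = 0 ∧ (m j).linear (w j) = 1) ∧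
    (∀ j' ∈ s, j' ≠ j → 1 < |m j' x|) ∧ ∀ r ∈ I, ∀ t ∈ I,
      x + (r - l x) • v j + (t - m j x) • w j ∈ intrinsicInterior ℝ Q) →
  ∃ b : Band E, Nb b Q l ∧ Agree b a ∧ ∀ j ∈ s, ∀ x ∈ Q, |l x| ≤ 1 → |m j x| ≤ 1 →
    ∀ r ∈ I, b.M (x, r) = x + (r - l x) • v j

/-- two families on a convex cell -/
def GCVX : Prop := ∀ {E : Type} [NormedAddCommGroup E] [NormedSpace ℝ E] [FiniteDimensional ℝ E]
  {ι : Type} [Finite ι] (fam : ι → Bool) {Q : Set E} (l : ι → E →ᵃ[ℝ] ℝ),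
  IsCompact Q → Convex ℝ Q → LocCone Q → (∀ i, Off Q (l i) ∨ Both Q (l i) 1) →
  (∀ i j, i ≠ j → ∀ x ∈ Q, |l i x| ≤ 1 → |l j x| ≤ 1 → fam i ≠ fam j ∧
    x ∉ intrinsicFrontier ℝ Q ∧ 2 ≤ Module.finrank ℝ (vectorSpan ℝ Q)) →
  Good Q (intrinsicFrontier ℝ Q) fun i => l i

/-- two families on a cell which is convex in a chart -/
def GLIN : Prop := ∀ {E : Type} [NormedAddCommGroup E] [NormedSpace ℝ E] [FiniteDimensional ℝ E]
  {ι : Type} [Finite ι] (fam : ι → Bool) {n : ℕ} {C S : Set E} {f : ι → E → ℝ},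
  ConBall n C S → Lin C S f → (∀ i, Off C (f i) ∨ Both C (f i) 1) →
  (∀ i j, i ≠ j → ∀ x ∈ C, |f i x| ≤ 1 → |f j x| ≤ 1 → fam i ≠ fam j ∧ x ∉ S ∧ 2 ≤ n) →
  Good C S f

/-- the pattern of the walls in such a cell -/
def SLICE : Prop := ∀ {E : Type} [NormedAddCommGroup E] [NormedSpace ℝ E] [FiniteDimensional ℝ E]
  {ι : Type} {n : ℕ} {C S : Set E} {f : ι → E → ℝ}, ConBall (n + 1) C S → Lin C S f →
  ∀ i a, (∃ x ∈ C, f i x < a) → (∃ x ∈ C, a < f i x) →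
    ConBall n (lev C (f i) a) (lev S (f i) a)

/-- no vertex in the band -/
def BOTHV : Prop := ∀ {E : Type} [NormedAddCommGroup E] [NormedSpace ℝ E] [FiniteDimensional ℝ E]
  {ι : Type} (K : RCx E) (f : ι → E → ℝ) (c : K.ι),
  (∀ j, K.cell j ⊆ K.cell c → Lin (K.cell j) (K.bd j) f) → ∀ i,
  (∀ x ∈ K.cell c ∩ K.skel 0, 1 < |f i x|) → Off (K.cell c) (f i) ∨ Both (K.cell c) (f i) 1

/-! ### flattening -/

/-- straightening of both families, only the levels are matched on the boundary -/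
def FLATB : Prop := ∀ {E : Type} [NormedAddCommGroup E] [NormedSpace ℝ E] [FiniteDimensional ℝ E]
  {ι : Type} [Finite ι] {C S : Set E} {lo hi : E3} {lam : ℝ} (b : ι → Band E) (t : ι → ℝ)
  (co : ι → Fin 3) (φ : ConHomeo S (frontier (Icc lo hi))), ConBall 3 C S → (∀ k, lo k < hi k) →
  0 < lam → (∀ i, co i ≠ 2 ∧ lo (co i) < t i - lam ∧ t i + lam < hi (co i)) →
  (∀ i j, i ≠ j → Comm (b i) (b j) ∧
    (co i = co j → Disjoint (b i).B (b j).B ∧ 2 * lam < |t i - t j|) ∧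
    (co i ≠ co j → ∃ p ∈ S, ∃ q ∈ S, IsArc ((b i).W ∩ (b j).W) p q)) →
  (∀ i, (b i).On C ∧ (b i).Keeps S ∧ ConBall 2 (b i).W ((b i).W ∩ S) ∧ ∀ x ∈ S,
    (x ∈ (b i).B ↔ |φ.toFun x (co i) - t i| ≤ lam) ∧
    (b i).u x = cl ((φ.toFun x (co i) - t i) / lam)) →
  ∃ G : ConHomeo C (Icc lo hi), EqOn G.toFun φ.toFun S ∧ ∀ i, ∀ x ∈ C,
    (x ∈ (b i).B ↔ |G.toFun x (co i) - t i| ≤ lam) ∧
    (b i).u x = cl ((G.toFun x (co i) - t i) / lam)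

end P073.Nt
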