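import Vale.Agent.P073Y.Nt.Rint
import Vale.Agent.P073Z.EN

/-!
# Coning from relative interior points; the dimension of a ball
-/

open Set Metric Topology Filter MeasureTheory

namespace P073.Nt

variable {E : Type} [NormedAddCommGroup E] [NormedSpace ℝ E] {Q : Set E} {p : E}

theorem lineMap_eq_add (p x : E) (s : ℝ) : AffineMap.lineMap p x s = p + s • (x - p) := by
  rw [AffineMap.lineMap_apply, vsub_eq_sub, vadd_eq_add, add_comm]

variable [FiniteDimensional ℝ E]

theorem rayBaseAt_rel (hK : IsCompact Q) (hQ : Convex ℝ Q) (hp : p ∈ intrinsicInterior ℝ Q) :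
    RayBaseAt p (intrinsicFrontier ℝ Q) := by
  refine rayBaseAt_iff.2 ⟨hK.of_isClosed_subset
    (isClosed_intrinsicFrontier (AffineSubspace.closed_of_finiteDimensional _))
    (intrinsicFrontier_subset hK.isClosed), ?_, ?_⟩
  · rw [intrinsicFrontier_eq hK.isClosed]
    exact fun h => h.2 hp
  · rw [intrinsicFrontier_eq hK.isClosed]
    intro x hx s hs h
    rw [← lineMap_eq_add] at h
    rcases lt_trichotomy s 1 with h1 | h1 | h1
    · exact absurd (lineMap_mem_rel hQ hp hx.1 ⟨hs.le, h1⟩) h.2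
    · exact h1
    · exact absurd (mem_rel_of_beyond hQ hp h1 h.1) hx.2

/-- radial projection to the relative frontier -/
theorem exists_radial (hK : IsCompact Q) {y : E} (hy : y ∈ Q) (hp : p ∈ Q) (hne : y ≠ p) :
    ∃ s ∈ Icc (0 : ℝ) 1, ∃ x ∈ intrinsicFrontier ℝ Q, y = p + s • (x - p) := by
  have he : IsClosedEmbedding fun t : ℝ => p + t • (y - p) :=
    (Homeomorph.addLeft p).isClosedEmbedding.comp (isClosedEmbedding_smul_left (sub_ne_zero.2 hne))
  have h1 : (1 : ℝ) ∈ (fun t : ℝ => p + t • (y - p)) ⁻¹' Q := by simpa using hy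
  obtain ⟨t, ht, hm⟩ := (he.isCompact_preimage hK).exists_isMaxOn ⟨1, h1⟩ continuousOn_id
  have h2 : 1 ≤ t := hm h1
  have h0 : 0 < t := by linarith
  refine ⟨t⁻¹, ⟨(inv_pos.2 h0).le, inv_le_one_of_one_le₀ h2⟩, p + t • (y - p), ?_, ?_⟩
  · rw [intrinsicFrontier_eq hK.isClosed]
    refine ⟨ht, fun h => ?_⟩
    obtain ⟨s, hs, h3⟩ := exists_beyond hp h
    rw [← lineMap_eq_add, lineMap_comp, lineMap_eq_add] at h3
    have h4 : s * t ≤ t := hm h3
    nlinarith
  · rw [add_sub_cancel_left, smul_smul, inv_mul_cancel₀ h0.ne', one_smul, add_sub_cancel]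

theorem coneSetAt_rel (hK : IsCompact Q) (hQ : Convex ℝ Q) (hp : p ∈ Q)
    (hne : (intrinsicFrontier ℝ Q).Nonempty) : coneSetAt p (intrinsicFrontier ℝ Q) = Q := by
  refine Subset.antisymm ?_ fun y hy => ?_
  · rintro _ ⟨s, hs, x, hx, rfl⟩
    rw [← lineMap_eq_add]
    exact hQ.lineMap_mem hp (intrinsicFrontier_subset hK.isClosed hx) hs
  · by_cases h : y = p
    · obtain ⟨x, hx⟩ := hne
      exact ⟨0, ⟨le_rfl, zero_le_one⟩, x, hx, by rw [zero_smul, add_zero, h]⟩
    · exact exists_radial hK hy hp h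

theorem eq_singleton_of_rel (hK : IsCompact Q) (hp : p ∈ Q)
    (hne : ¬ (intrinsicFrontier ℝ Q).Nonempty) : Q = {p} := by
  refine eq_singleton_iff_unique_mem.2 ⟨hp, fun y hy => ?_⟩
  by_contra h
  obtain ⟨-, -, x, hx, -⟩ := exists_radial hK hy hp h
  exact hne ⟨x, hx⟩

theorem cext : CEXT := by
  intro E F _ _ _ _ _ _ Q Q' p p' θ hK hQ hp hK' hQ' hp'
  have hq := intrinsicInterior_subset hp
  have hq' := intrinsicInterior_subset hp'
  by_cases hne : (intrinsicFrontier ℝ Q).Nonempty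
  · have hne' : (intrinsicFrontier ℝ Q').Nonempty := θ.mapsTo.nonempty hne
    refine ⟨(ConHomeo.coneAt (rayBaseAt_rel hK hQ hp) (rayBaseAt_rel hK' hQ' hp') θ).cast
      (coneSetAt_rel hK hQ hq hne) (coneSetAt_rel hK' hQ' hq' hne'),
      ConHomeo.coneAt_eqOn _ _ θ, fun l l' h0 h x hx => ?_⟩
    obtain ⟨s, hs, z, hz, rfl⟩ := (coneSetAt_rel hK hQ hq hne).ge hx
    rw [ConHomeo.cast_toFun, ConHomeo.coneAt_apply _ _ θ hs hz, ← lineMap_eq_add,
      ← lineMap_eq_add, AffineMap.apply_lineMap, AffineMap.apply_lineMap, h0, h z hz]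
  · have hne' : ¬ (intrinsicFrontier ℝ Q').Nonempty := fun h => hne (θ.mapsTo_inv.nonempty h)
    have e := eq_singleton_of_rel hK hq hne
    have e' := eq_singleton_of_rel hK' hq' hne'
    refine ⟨ConHomeo.ofCompact hK (fun _ => p') continuousOn_const (e ▸ injOn_singleton _ _)
      (conicalOn_const _ (Convex.conicalSet hQ)) ?_, fun x hx => absurd ⟨x, hx⟩ hne,
      fun l l' h0 _ x hx => ?_⟩
    · rw [e', Nonempty.image_const ⟨p, hq⟩]
    · rw [ConHomeo.ofCompact_toFun, h0, (e.le hx : x = p)]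

omit [FiniteDimensional ℝ E] in
theorem not_lt_dim {m n : ℕ} {C B B' : Set E} (h : ConBall m C B) (h' : ConBall n C B') :
    ¬ m < n := by
  intro hk
  obtain ⟨-, ψ, -⟩ := h'
  have h1 := (h.image ψ Subset.rfl).hausdorff_zero hk
  have h2 := hausdorffMeasure_pi_real (ι := Fin n)
  rw [Fintype.card_fin] at h2
  rw [ψ.image_eq, h2] at h1
  exact (measure_closedBall_pos volume _ one_pos).ne' h1

theorem dimu : DIMU := fun h h' =>
  le_antisymm (not_lt.1 (not_lt_dim h' h)) (not_lt.1 (not_lt_dim h h'))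

end P073.Nt
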