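import Vale.Agent.P073Y.Nt.Slice
import Vale.Agent.P073Y.Bd.Bas1
import Vale.Agent.P073Y.Bd.Bas2
import Vale.Agent.P073Y.Bd.Glue

/-!
# Natural bands: extension over a convex cell
-/

open Set Metric Topology Filter

namespace P073.Nt

open P073.Bd (Band I cl)
open P073.Fl (Both)
open P073.A2 Slc

namespace Exc

variable {E : Type} [NormedAddCommGroup E] [NormedSpace ℝ E]

/-- the map on the boundary of the cylinder -/
theorem exists_bd {a : Band E} (ha : a.Ok) {D Tp Tm : Set E} {l : E → ℝ} (hD : IsCompact D)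
    (hW : a.W ⊆ D) (hu : ∀ x ∈ a.B, a.u x = l x) (hp : ∀ x ∈ Tp, l x = 1)
    (hm : ∀ x ∈ Tm, l x = -1) (Θp : ConHomeo D Tp) (Θm : ConHomeo D Tm)
    (ep : ∀ x ∈ a.W, Θp.toFun x = a.M (x, 1)) (em : ∀ x ∈ a.W, Θm.toFun x = a.M (x, -1)) :
    ∃ θ : ConHomeo (a.W ×ˢ I ∪ (D ×ˢ {1} ∪ D ×ˢ {-1})) (a.B ∪ (Tp ∪ Tm)),
      (∀ q ∈ a.W ×ˢ I, θ.toFun q = a.M q) ∧
      ∀ q ∈ a.W ×ˢ I ∪ (D ×ˢ {1} ∪ D ×ˢ {-1}), l (θ.toFun q) = q.2 := by
  classical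
  obtain ⟨Φ, hΦ, -⟩ := Bd.Bas2.chart ha
  let F : E × ℝ → E := fun q =>
    if q.2 = 1 then Θp.toFun q.1 else if q.2 = -1 then Θm.toFun q.1 else a.M q
  have e0 : ∀ q ∈ a.W ×ˢ I, F q = Φ.toFun q := by
    rintro ⟨x, s⟩ hq
    rw [hΦ]
    simp only [F]
    split_ifs with h1 h2
    · rw [h1]; exact ep x hq.1
    · rw [h2]; exact em x hq.1
    · rfl
  have e1 : ∀ q ∈ D ×ˢ ({1} : Set ℝ), F q = Θp.toFun q.1 := fun q hq => if_pos hq.2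
  have e2 : ∀ q ∈ D ×ˢ ({-1} : Set ℝ), F q = Θm.toFun q.1 := by
    intro q hq
    have h : q.2 = -1 := hq.2
    simp only [F]
    rw [if_neg (by rw [h]; norm_num), if_pos h]
  have cW := (Bd.Bas2.W_cpt ha).1.prod (isCompact_Icc (a := (-1 : ℝ)) (b := 1))
  have c1 := hD.prod (isCompact_singleton (x := (1 : ℝ)))
  have c2 := hD.prod (isCompact_singleton (x := (-1 : ℝ)))
  have cs : ∀ s : ℝ, ConicalSet (D ×ˢ ({s} : Set ℝ)) := fun s =>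
    conicalSet_prod Θp.conicalSet_left (Bd.Bas2.locCone_single s).conicalSet
  have hpl : PLOn F (a.W ×ˢ I ∪ (D ×ˢ {1} ∪ D ×ˢ {-1})) :=
    Bd.Glue.pl_union cW.isClosed (c1.union c2).isClosed (pl_congr ⟨Φ.cont, Φ.conical⟩ e0)
      (Bd.Glue.pl_union c1.isClosed c2.isClosed
        (pl_congr (pl_comp ⟨Θp.cont, Θp.conical⟩ (pl_fst (cs 1)) fun q hq => hq.1) e1)
        (pl_congr (pl_comp ⟨Θm.cont, Θm.conical⟩ (pl_fst (cs (-1))) fun q hq => hq.1) e2))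
  have hl : ∀ q ∈ a.W ×ˢ I ∪ (D ×ˢ {1} ∪ D ×ˢ {-1}), l (F q) = q.2 := by
    rintro q (hq | hq | hq)
    · rw [e0 q hq, hΦ]
      have := ha.Mmem q.1 hq.1.1 q.2 hq.2
      rw [← hu _ this.1]
      exact this.2
    · rw [e1 q hq, hp _ (Θp.mapsTo hq.1)]
      exact hq.2.symm
    · rw [e2 q hq, hm _ (Θm.mapsTo hq.1)]
      exact hq.2.symm
  have hD1 : ∀ q ∈ a.W ×ˢ I ∪ (D ×ˢ ({1} : Set ℝ) ∪ D ×ˢ {-1}), q.1 ∈ D := by
    rintro q (hq | hq | hq)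
    exacts [hW hq.1, hq.1, hq.1]
  have hinj : InjOn F (a.W ×ˢ I ∪ (D ×ˢ {1} ∪ D ×ˢ {-1})) := by
    intro q hq q' hq' h
    have h2 : q.2 = q'.2 := by rw [← hl q hq, ← hl q' hq', h]
    by_cases k1 : q.2 = 1
    · rw [e1 q ⟨hD1 q hq, k1⟩, e1 q' ⟨hD1 q' hq', h2 ▸ k1⟩] at h
      exact Prod.ext (Θp.injOn (hD1 q hq) (hD1 q' hq') h) h2
    by_cases k2 : q.2 = -1
    · rw [e2 q ⟨hD1 q hq, k2⟩, e2 q' ⟨hD1 q' hq', h2 ▸ k2⟩] at h
      exact Prod.ext (Θm.injOn (hD1 q hq) (hD1 q' hq') h) h2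
    have m : q ∈ a.W ×ˢ I := hq.resolve_right fun k => k.elim (fun k => k1 k.2) fun k => k2 k.2
    have m' : q' ∈ a.W ×ˢ I := hq'.resolve_right fun k =>
      k.elim (fun k => k1 (h2.trans k.2)) fun k => k2 (h2.trans k.2)
    rw [e0 q m, e0 q' m'] at h
    exact Φ.injOn m m' h
  have himg : F '' (a.W ×ˢ I ∪ (D ×ˢ {1} ∪ D ×ˢ {-1})) = a.B ∪ (Tp ∪ Tm) := by
    rw [image_union, image_union, image_congr e0, Φ.image_eq, image_congr e1, image_congr e2,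
      ← image_image Θp.toFun Prod.fst, ← image_image Θm.toFun Prod.fst,
      fst_image_prod _ (singleton_nonempty _), fst_image_prod _ (singleton_nonempty _),
      Θp.image_eq, Θm.image_eq]
  refine ⟨ConHomeo.ofCompact (cW.union (c1.union c2)) F hpl.1 hinj hpl.2 himg, fun q hq => ?_,
    fun q hq => ?_⟩
  · rw [ConHomeo.ofCompact_toFun, e0 q hq, hΦ]
  · rw [ConHomeo.ofCompact_toFun, hl q hq]

end Exc

theorem excvx_of (h1 : RINT) (h2 : CEXT) (h3 : OFCH) : EXCVX := by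
  intro E _ _ _ Q l hK hc hL hB a ha
  have hok := ha.on.ok
  have hS := intrinsicFrontier_eq hK.isClosed
  have hmem : ∀ x, x ∈ a.B ↔ x ∈ intrinsicFrontier ℝ Q ∧ |l x| ≤ 1 := fun x =>
    ⟨fun hx => ⟨ha.on.sub hx, (ha.mem x (ha.on.sub hx)).1 hx⟩, fun hx => (ha.mem x hx.1).2 hx.2⟩
  have hu : ∀ x ∈ a.B, a.u x = l x := fun x hx => by
    rw [ha.u_eq x (ha.on.sub hx), Bd.Bas1.cl_of_mem (abs_le.1 ((hmem x).1 hx).2)]
  have hR := (h1 hc).2.2 l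
  have hlev : ∀ s ∈ I, (intrinsicInterior ℝ {x ∈ Q | l x = s}).Nonempty ∧
      intrinsicInterior ℝ {x ∈ Q | l x = s} = {x ∈ intrinsicInterior ℝ Q | l x = s} := by
    intro s hs
    obtain ⟨⟨x, hx, k1⟩, y, hy, k2⟩ := hB
    have := hR.1 s ⟨x, hx, k1.trans_le hs.1⟩ ⟨y, hy, hs.2.trans_lt k2⟩
    exact ⟨this.1, this.2.1⟩
  have hfr : ∀ s ∈ I, intrinsicFrontier ℝ {x ∈ Q | l x = s} = {x ∈ a.B | a.u x = s} := by
    intro s hs
    rw [frontier_lev hK l (hlev s hs).2]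
    ext x
    refine ⟨fun hx => ?_, fun hx => ⟨ha.on.sub hx.1, (hu x hx.1).symm.trans hx.2⟩⟩
    have : x ∈ a.B := (hmem x).2 ⟨hx.1, by rw [hx.2]; exact abs_le.2 hs⟩
    exact ⟨this, (hu x this).trans hx.2⟩
  have hW : intrinsicFrontier ℝ {x ∈ Q | l x = 0} = a.W := hfr 0 Bd.Bas2.zero_mem_I
  obtain ⟨⟨p, hp⟩, hi0⟩ := hlev 0 Bd.Bas2.zero_mem_I
  obtain ⟨k1, k2, k3⟩ := lev_props hK hc hL l 0
  have hext : ∀ s ∈ I, ∃ Θ : ConHomeo {x ∈ Q | l x = 0} {x ∈ Q | l x = s},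
      ∀ x ∈ a.W, Θ.toFun x = a.M (x, s) := by
    intro s hs
    obtain ⟨Φ, hΦ, -⟩ := Bd.Bas2.level hok (Y := a.B) (fun x hx s hs _ => (hok.Mmem x hx s hs).1)
      hok.cpt hok.loc s hs
    obtain ⟨p', hp'⟩ := (hlev s hs).1
    obtain ⟨m1, m2, -⟩ := lev_props hK hc hL l s
    obtain ⟨Θ, hΘ, -⟩ := h2 (Φ.cast ((inter_eq_left.2 (Bd.Bas2.W_sub a)).trans hW.symm)
      (by rw [inter_self, hfr s hs])) k1 k2 hp m1 m2 hp'
    exact ⟨Θ, fun x hx => (hΘ (hW ▸ hx)).trans (hΦ x)⟩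
  obtain ⟨Θp, ep⟩ := hext 1 ⟨by norm_num, le_rfl⟩
  obtain ⟨Θm, em⟩ := hext (-1) ⟨le_rfl, by norm_num⟩
  have hWD : a.W ⊆ {x ∈ Q | l x = 0} := by
    rw [← hW, intrinsicFrontier_eq k1.isClosed]
    exact sdiff_subset
  obtain ⟨θ, hθ, hθl⟩ := Exc.exists_bd hok k1 hWD hu (fun x hx => hx.2) (fun x hx => hx.2)
    Θp Θm ep em
  have cD := k1.prod (isCompact_Icc (a := (-1 : ℝ)) (b := 1))
  have vD := k2.prod (convex_Icc (-1 : ℝ) 1)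
  have eR : {x ∈ Q | |l x| ≤ 1} = {x ∈ Q | l x ∈ Icc (-1 : ℝ) 1} :=
    Set.ext fun x => and_congr_right fun _ => abs_le
  have cR : IsCompact {x ∈ Q | |l x| ≤ 1} :=
    hK.inter_right (isClosed_le l.continuous_of_finiteDimensional.abs continuous_const)
  have vR : Convex ℝ {x ∈ Q | |l x| ≤ 1} := by
    rw [eR]
    exact hc.inter ((convex_Icc (-1 : ℝ) 1).affine_preimage l)
  have lR : LocCone {x ∈ Q | |l x| ≤ 1} := by
    rw [eR]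
    exact locCone_lev hL l _ _
  have hiD := (h1 k2).2.1
  have f1 : a.W ×ˢ I ∪ ({x ∈ Q | l x = 0} ×ˢ {1} ∪ {x ∈ Q | l x = 0} ×ˢ {-1}) =
      intrinsicFrontier ℝ ({x ∈ Q | l x = 0} ×ˢ I) := by
    rw [intrinsicFrontier_eq cD.isClosed, hiD, ← hW, intrinsicFrontier_eq k1.isClosed]
    ext ⟨x, s⟩
    constructor
    · rintro (hq | hq | hq)
      · exact ⟨⟨hq.1.1, hq.2⟩, fun h => hq.1.2 h.1⟩
      · have h : s = 1 := hq.2
        exact ⟨⟨hq.1, by rw [h]; norm_num, h.le⟩, fun k => k.2.2.ne h⟩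
      · have h : s = -1 := hq.2
        exact ⟨⟨hq.1, h.ge, by rw [h]; norm_num⟩, fun k => k.2.1.ne' h⟩
    · rintro ⟨hq, hn⟩
      by_cases j1 : s = 1
      · exact Or.inr (Or.inl ⟨hq.1, j1⟩)
      by_cases j2 : s = -1
      · exact Or.inr (Or.inr ⟨hq.1, j2⟩)
      exact Or.inl ⟨⟨hq.1, fun h => hn ⟨h, lt_of_le_of_ne hq.2.1 (Ne.symm j2),
        lt_of_le_of_ne hq.2.2 j1⟩⟩, hq.2⟩
  have f2 : a.B ∪ ({x ∈ Q | l x = 1} ∪ {x ∈ Q | l x = -1}) =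
      intrinsicFrontier ℝ {x ∈ Q | |l x| ≤ 1} := by
    rw [intrinsicFrontier_eq cR.isClosed, hR.2 hB]
    ext x
    constructor
    · rintro (hx | hx | hx)
      · have := (hmem x).1 hx
        rw [hS] at this
        exact ⟨⟨this.1.1, this.2⟩, fun h => this.1.2 h.1⟩
      · have h : |l x| = 1 := by rw [hx.2, abs_one]
        exact ⟨⟨hx.1, h.le⟩, fun k => k.2.ne h⟩
      · have h : |l x| = 1 := by rw [hx.2, abs_neg, abs_one]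
        exact ⟨⟨hx.1, h.le⟩, fun k => k.2.ne h⟩
    · rintro ⟨hx, hn⟩
      rcases eq_or_lt_of_le hx.2 with h | h
      · rcases (abs_eq zero_le_one).1 h with h | h
        · exact Or.inr (Or.inl ⟨hx.1, h⟩)
        · exact Or.inr (Or.inr ⟨hx.1, h⟩)
      · exact Or.inl ((hmem x).2 ⟨by rw [hS]; exact ⟨hx.1, fun k => hn ⟨k, h⟩⟩, hx.2⟩)
  have hp' := hp
  rw [hi0] at hp'
  obtain ⟨Θ, hΘ, hΘl⟩ := h2 (p := (p, 0)) (p' := p) (θ.cast f1 f2) cD vD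
    (by rw [hiD]; exact ⟨hp, by norm_num, by norm_num⟩) cR vR
    (by rw [hR.2 hB]; exact ⟨hp'.1, by rw [hp'.2]; norm_num⟩)
  have hΘl' := hΘl (LinearMap.snd ℝ E ℝ).toAffineMap l hp'.2 fun q hq => hθl q (f1 ▸ hq)
  obtain ⟨b, hb, hM⟩ := h3 Θ cR lR (Bd.Bas1.pl_cl ⟨l.continuous_of_finiteDimensional.continuousOn,
    conicalOn_of_affine l hL.conicalSet⟩) hΘl'
  refine ⟨b, hb, fun x hx s hs => ?_⟩
  have hw := Bd.Bas2.M_mem_W hok hx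
  have key : ∀ t ∈ I, Θ.toFun (a.M (x, 0), t) = a.M (x, t) := fun t ht => by
    have m : (a.M (x, 0), t) ∈ a.W ×ˢ I := ⟨hw, ht⟩
    rw [hΘ (f1 ▸ Or.inl m), ConHomeo.cast_toFun, hθ _ m, hok.MM x hx 0 Bd.Bas2.zero_mem_I t ht]
  have hinv : Θ.invFun x = (a.M (x, 0), a.u x) := by
    have := Θ.left_inv (x := (a.M (x, 0), a.u x)) ⟨hWD hw, hok.urange x hx⟩
    rwa [key _ (hok.urange x hx), hok.Mid x hx] at this
  rw [hM]
  show Θ.toFun ((Θ.invFun x).1, s) = _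
  rw [hinv, key s hs]

end P073.Nt
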