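import Vale.Agent.P073Y.Nt.Sk
import Vale.Agent.P073Y.Bd.Bas
import Vale.Agent.P073Y.Fl.Lext
import Vale.Agent.P073Z.SHELL.A

/-!
# Extension of natural bands over a local band
-/

open Set Metric Topology Filter

namespace P073.Nt

open P073.Bd

namespace Exl

variable {E : Type} [NormedAddCommGroup E] [NormedSpace ℝ E]

omit [NormedSpace ℝ E] in
/-- a path in a finite disjoint union of closed sets stays in one of them -/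
theorem stay {𝒟 : Finset (Set E)} (hc : ∀ D ∈ 𝒟, IsClosed D)
    (hd : ∀ D ∈ 𝒟, ∀ D' ∈ 𝒟, D ≠ D' → Disjoint D D') {γ : ℝ → E} (hγ : ContinuousOn γ I)
    (hm : ∀ s ∈ I, γ s ∈ ⋃ D ∈ 𝒟, D) {D : Set E} (hD : D ∈ 𝒟) (h0 : γ 0 ∈ D) :
    ∀ s ∈ I, γ s ∈ D := by
  classical
  have hp : IsPreconnected (γ '' I) := isPreconnected_Icc.image γ hγ
  have hR : IsClosed (⋃ D' ∈ 𝒟.erase D, D') :=
    isClosed_biUnion_finset fun D' h => hc D' (Finset.mem_of_mem_erase h)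
  have hdis : ∀ x ∈ D, x ∉ ⋃ D' ∈ 𝒟.erase D, D' := fun x hx h => by
    obtain ⟨D', h1, h2⟩ := mem_iUnion₂.1 h
    obtain ⟨h3, h4⟩ := Finset.mem_erase.1 h1
    exact disjoint_left.1 (hd D' h4 D hD h3) h2 hx
  rcases isPreconnected_iff_subset_of_disjoint_closed.1 hp D _ (hc D hD) hR (by
      rintro _ ⟨s, hs, rfl⟩
      obtain ⟨D', h1, h2⟩ := mem_iUnion₂.1 (hm s hs)
      by_cases h : D' = D
      · exact Or.inl (h ▸ h2)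
      · exact Or.inr (mem_iUnion₂.2 ⟨D', Finset.mem_erase.2 ⟨h, h1⟩, h2⟩))
    (eq_empty_of_forall_notMem fun x hx => hdis x hx.2.1 hx.2.2) with h | h
  · exact fun s hs => h (mem_image_of_mem _ hs)
  · exact absurd (h (mem_image_of_mem _ Bas2.zero_mem_I)) (hdis _ h0)

/-- the comparison map of two bands -/
theorem pl_cmp {a l : Band E} (ha : a.Ok) (hl : l.Ok) {J : Set E} (hJ : ConicalSet J)
    (hJa : J ⊆ a.B) (hm : ∀ x ∈ J, ∀ s ∈ I, a.M (x, s) ∈ l.B) :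
    PLOn (fun q : E × ℝ => (l.M (a.M q, 0), q.2)) (J ×ˢ I) := by
  have hP : ConicalSet (J ×ˢ I) := Sh.conicalSet_prod hJ Bas2.cs_I
  have hsub : J ×ˢ I ⊆ a.B ×ˢ I := prod_mono hJa Subset.rfl
  have h1 : PLOn a.M (J ×ˢ I) := ⟨ha.Mpl.1.mono hsub, ha.Mpl.2.mono hP hsub⟩
  have k1 : ContinuousOn (fun q => (a.M q, (0:ℝ))) (J ×ˢ I) := h1.1.prodMk continuousOn_const
  have k2 : ConicalOn (fun q => (a.M q, (0:ℝ))) (J ×ˢ I) := h1.2.prodMk (conicalOn_const _ hP)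
  have k3 : MapsTo (fun q => (a.M q, (0:ℝ))) (J ×ˢ I) (l.B ×ˢ I) :=
    fun q hq => ⟨hm q.1 hq.1 q.2 hq.2, Bas2.zero_mem_I⟩
  exact ⟨(hl.Mpl.1.comp k1 k3).prodMk continuousOn_snd,
    (hl.Mpl.2.comp k2 k3 k1).prodMk (Sh.conicalOn_snd hP)⟩

end Exl

open Exl in
theorem exloc_of (h : OFCH) : EXLOC := by
  intro E _ _ _ n C S f l hSC hl hk hB a ha
  obtain ⟨𝒟, hW, hd, hD⟩ := hB
  have la := ha.on.ok
  have ll := hl.on.ok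
  have hBe : ∀ x, x ∈ a.B ↔ x ∈ l.B ∧ x ∈ S := fun x =>
    ⟨fun hx => ⟨(hl.mem x (hSC (ha.on.sub hx))).2 ((ha.mem x (ha.on.sub hx)).1 hx), ha.on.sub hx⟩,
      fun hx => (ha.mem x hx.2).2 ((hl.mem x (hSC hx.2)).1 hx.1)⟩
  have hue : ∀ x ∈ S, a.u x = l.u x := fun x hx => by rw [ha.u_eq x hx, hl.u_eq x (hSC hx)]
  have hDW : ∀ D ∈ 𝒟, D ⊆ l.W := fun D hD' x hx => hW ▸ mem_iUnion₂.2 ⟨D, hD', hx⟩
  have hJa : ∀ D ∈ 𝒟, D ∩ S ⊆ a.W := fun D hD' x hx =>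
    ⟨(hBe x).2 ⟨(hDW D hD' hx.1).1, hx.2⟩, (hue x hx.2).trans (hDW D hD' hx.1).2⟩
  have hcl : ∀ D ∈ 𝒟, IsClosed D := fun D hD' => (hD D hD').isClosed
  have m1 : ∀ x ∈ a.B, ∀ s ∈ I, a.M (x, s) ∈ l.B := fun x hx s hs =>
    ((hBe _).1 (la.Mmem x hx s hs).1).1
  have m2 : ∀ x ∈ a.B, ∀ s ∈ I, l.M (x, s) ∈ a.B := fun x hx s hs =>
    (hBe _).2 ⟨(ll.Mmem x ((hBe x).1 hx).1 s hs).1, hk x ((hBe x).1 hx).1 s hs ((hBe x).1 hx).2⟩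
  -- the comparison maps over the boundaries of the balls
  have key : ∀ D ∈ 𝒟, ∃ ψ : ConHomeo ((D ∩ S) ×ˢ I) ((D ∩ S) ×ˢ I),
      ∀ q, ψ.toFun q = (l.M (a.M q, 0), q.2) := by
    intro D hD'
    have hJ : ConicalSet (D ∩ S) := (hD D hD').conicalSet_bdry
    have hJB : D ∩ S ⊆ a.B := fun x hx => (hJa D hD' hx).1
    have p1 := pl_cmp la ll hJ hJB fun x hx => m1 x (hJB hx)
    have p2 := pl_cmp ll la hJ (fun x hx => ((hBe x).1 (hJB hx)).1) fun x hx => m2 x (hJB hx)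
    have fib : ∀ {g : E × ℝ → E × ℝ}, ContinuousOn g ((D ∩ S) ×ˢ I) → ∀ x ∈ D ∩ S,
        ContinuousOn (fun s => (g (x, s)).1) I := fun hg x hx =>
      (hg.comp (continuousOn_const.prodMk continuousOn_id) fun _ hs => ⟨hx, hs⟩).fst
    refine ⟨⟨fun q => (l.M (a.M q, 0), q.2), fun q => (a.M (l.M q, 0), q.2), ?_, ?_, ?_, ?_,
      p1.1, p2.1, p1.2⟩, fun _ => rfl⟩
    · rintro ⟨x, s⟩ ⟨hx, hs⟩
      refine ⟨⟨stay hcl hd (fib p1.1 x hx) (fun t ht => ?_) hD' ?_ s hs, ?_⟩, hs⟩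
      · exact hW ▸ Bas2.M_mem_W ll (m1 x (hJB hx) t ht)
      · show l.M (a.M (x, 0), 0) ∈ D
        rw [Bas2.M_zero la (hJa D hD' hx), Bas2.M_zero ll (hDW D hD' hx.1)]
        exact hx.1
      · exact ((hBe _).1 (m2 _ (la.Mmem x (hJB hx) s hs).1 0 Bas2.zero_mem_I)).2
    · rintro ⟨x, s⟩ ⟨hx, hs⟩
      have hm : ∀ t ∈ I, a.M (l.M (x, t), 0) ∈ a.W := fun t ht =>
        Bas2.M_mem_W la (m2 x (hJB hx) t ht)
      refine ⟨⟨stay hcl hd (fib p2.1 x hx) (fun t ht => ?_) hD' ?_ s hs,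
        ha.on.sub (hm s hs).1⟩, hs⟩
      · have h3 : a.M (l.M (x, t), 0) ∈ l.W :=
          ⟨((hBe _).1 (hm t ht).1).1, (hue _ (ha.on.sub (hm t ht).1)).symm.trans (hm t ht).2⟩
        exact hW ▸ h3
      · show a.M (l.M (x, 0), 0) ∈ D
        rw [Bas2.M_zero ll (hDW D hD' hx.1), Bas2.M_zero la (hJa D hD' hx)]
        exact hx.1
    · rintro ⟨x, s⟩ ⟨hx, hs⟩
      obtain ⟨h1, h2⟩ := la.Mmem x (hJB hx) s hs
      have h3 : l.M (l.M (a.M (x, s), 0), s) = a.M (x, s) := by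
        rw [ll.MM _ ((hBe _).1 h1).1 0 Bas2.zero_mem_I s hs]
        have := ll.Mid _ ((hBe _).1 h1).1
        rwa [← hue _ (ha.on.sub h1), h2] at this
      show (a.M (l.M (l.M (a.M (x, s), 0), s), 0), s) = (x, s)
      rw [h3, la.MM x (hJB hx) s hs 0 Bas2.zero_mem_I, Bas2.M_zero la (hJa D hD' hx)]
    · rintro ⟨x, s⟩ ⟨hx, hs⟩
      have hxl := ((hBe x).1 (hJB hx)).1
      have h1 := m2 x (hJB hx) s hs
      have h3 : a.M (a.M (l.M (x, s), 0), s) = l.M (x, s) := by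
        rw [la.MM _ h1 0 Bas2.zero_mem_I s hs]
        have := la.Mid _ h1
        rwa [hue _ (ha.on.sub h1), (ll.Mmem x hxl s hs).2] at this
      show (l.M (a.M (a.M (l.M (x, s), 0), s), 0), s) = (x, s)
      rw [h3, ll.MM x hxl s hs 0 Bas2.zero_mem_I, Bas2.M_zero ll (hDW D hD' hx.1)]
  have key2 : ∀ D : 𝒟, ∃ Ψ : ConHomeo ((D : Set E) ×ˢ I) ((D : Set E) ×ˢ I),
      (∀ q ∈ ((D : Set E) ∩ S) ×ˢ I, Ψ.toFun q = (l.M (a.M q, 0), q.2)) ∧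
      ∀ q ∈ (D : Set E) ×ˢ I, (Ψ.toFun q).2 = q.2 := by
    intro D
    obtain ⟨ψ, hψ⟩ := key D D.2
    obtain ⟨Ψ, h1, h2⟩ := P073.Fl.lext (c := 1) ψ one_pos (hD D D.2) (hD D D.2)
      fun q _ => by rw [hψ]
    exact ⟨Ψ, fun q hq => (h1 hq).trans (hψ q), h2⟩
  choose Ψ hΨ1 hΨ2 using key2
  have hlf : RelLF fun D : 𝒟 => (D : Set E) ×ˢ I :=
    RelLF.of_finite fun D => (hcl D D.2).prod isClosed_Icc
  have hij : ∀ (i j : 𝒟), ∀ q ∈ (i : Set E) ×ˢ I ∩ (j : Set E) ×ˢ I, i = j := fun i j q hq => by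
    by_contra hne
    exact disjoint_left.1 (hd i i.2 j j.2 fun h => hne (Subtype.ext h)) hq.1.1 hq.2.1
  obtain ⟨Φ, hΦ⟩ := ConHomeo.exists_glue_family hlf hlf Ψ
    (fun i j q hq => by obtain rfl := hij i j q hq; rfl)
    (fun i j q hq => by
      obtain rfl := hij i j q hq
      rw [inter_self, (Ψ i).image_eq]; exact hq.1)
  have hU : (⋃ D : 𝒟, (D : Set E) ×ˢ I) = l.W ×ˢ I := by
    ext q
    constructor
    · intro hq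
      obtain ⟨D, hq⟩ := mem_iUnion.1 hq
      exact ⟨hDW D D.2 hq.1, hq.2⟩
    · rintro ⟨h1, h2⟩
      rw [hW] at h1
      obtain ⟨D, hD', h1⟩ := mem_iUnion₂.1 h1
      exact mem_iUnion.2 ⟨⟨D, hD'⟩, h1, h2⟩
  have hlB : l.B = {x ∈ C | |f x| ≤ 1} := by
    ext x
    exact ⟨fun hx => ⟨hl.on.sub hx, (hl.mem x (hl.on.sub hx)).1 hx⟩,
      fun hx => (hl.mem x hx.1).2 hx.2⟩
  obtain ⟨lam, hlam, -⟩ := Bas2.chart ll
  let Θ : ConHomeo (l.W ×ˢ I) {x ∈ C | |f x| ≤ 1} := ((Φ.cast hU hU).trans lam).cast rfl hlB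
  have hΘ : ∀ q, Θ.toFun q = l.M (Φ.toFun q) := fun q => hlam _
  obtain ⟨b, hb, hbM⟩ := h Θ (hlB ▸ ll.cpt) (hlB ▸ ll.loc)
    ⟨hl.on.upl.1.congr fun x hx => (hl.u_eq x hx).symm,
      hl.on.upl.2.congr fun x hx => (hl.u_eq x hx).symm⟩ (fun q hq => by
      have h1 := Θ.mapsTo hq
      have h2 : Φ.toFun q ∈ l.W ×ˢ I := (Φ.cast hU hU).mapsTo hq
      have h3 := (ll.Mmem _ h2.1.1 _ h2.2).2
      obtain ⟨D, hqD⟩ := mem_iUnion.1 (hU ▸ hq : q ∈ ⋃ D : 𝒟, (D : Set E) ×ˢ I)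
      have h4 : (Φ.toFun q).2 = q.2 := by rw [(hΦ D).1 hqD, hΨ2 D q hqD]
      have h5 := hl.u_eq _ h1.1
      rw [Bas1.cl_of_mem (abs_le.1 h1.2)] at h5
      rw [← h5, hΘ, ← h4]
      exact h3)
  refine ⟨b, hb, fun x hx s hs => ?_⟩
  have hy := Bas2.M_mem_W la hx
  have hyl : a.M (x, 0) ∈ l.W :=
    ⟨((hBe _).1 hy.1).1, (hue _ (ha.on.sub hy.1)).symm.trans hy.2⟩
  obtain ⟨D, hD', hyD⟩ := mem_iUnion₂.1 (hW ▸ hyl : a.M (x, 0) ∈ ⋃ D ∈ 𝒟, D)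
  have hΘa : ∀ t ∈ I, Θ.toFun (a.M (x, 0), t) = a.M (x, t) := fun t ht => by
    obtain ⟨h1, h2⟩ := la.Mmem x hx t ht
    rw [hΘ, (hΦ ⟨D, hD'⟩).1 (show (a.M (x, 0), t) ∈ D ×ˢ I from ⟨hyD, ht⟩),
      hΨ1 ⟨D, hD'⟩ _ ⟨⟨hyD, ha.on.sub hy.1⟩, ht⟩, la.MM x hx 0 Bas2.zero_mem_I t ht,
      ll.MM _ ((hBe _).1 h1).1 0 Bas2.zero_mem_I t ht]
    have := ll.Mid _ ((hBe _).1 h1).1
    rwa [← hue _ (ha.on.sub h1), h2] at this
  have hinv : Θ.invFun x = (a.M (x, 0), a.u x) := by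
    have h1 := hΘa _ (la.urange x hx)
    rw [la.Mid x hx] at h1
    rw [← h1, Θ.left_inv ⟨hyl, la.urange x hx⟩, h1]
  rw [hbM, hinv]
  exact hΘa s hs

end P073.Nt
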