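import Vale.Agent.P073Y.Nt.Sk
import Vale.Agent.P073Y.Bd.Bas
import Vale.Agent.P073Z.A7a.Sgn

/-!
# Natural bands with prescribed translations on parallelograms
-/

open Set Metric Topology Filter

namespace P073.Nt

open P073.Bd (Band I cl Comm Ext)
open P073.Fl (lev Both)
open A2

namespace Exz

variable {E : Type} [NormedAddCommGroup E] [NormedSpace ℝ E]

theorem aff (l : E →ᵃ[ℝ] ℝ) (x v : E) (c : ℝ) : l (x + c • v) = l x + c * l.linear v := by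
  rw [add_comm, ← vadd_eq_add, l.map_vadd]
  simp [add_comm]

theorem sgn_keep {α : Type} [TopologicalSpace α] {S : Set α} {f : α → ℝ} (hS : IsPreconnected S)
    (hf : ContinuousOn f S) (h : ∀ y ∈ S, 1 < |f y|) {x y : α} (hx : x ∈ S) (hy : y ∈ S)
    (h1 : 1 ≤ f x) : 1 < f y := by
  refine (lt_abs.1 (h y hy)).resolve_right fun h2 => ?_
  obtain ⟨z, hz, e⟩ := hS.intermediate_value hy hx hf
    (show (0 : ℝ) ∈ _ from ⟨by linarith, by linarith⟩)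
  have := h z hz
  rw [e, abs_zero] at this
  linarith

variable [FiniteDimensional ℝ E]

theorem pl_aff (l : E →ᵃ[ℝ] ℝ) {X : Set E} (hX : ConicalSet X) : PLOn (fun x => l x) X :=
  ⟨l.continuous_of_finiteDimensional.continuousOn, conicalOn_of_affine l hX⟩

theorem cut_aff (l : E →ᵃ[ℝ] ℝ) {X : Set E} (hX : IsCompact X) (hc : LocCone X) {J : Set ℝ}
    (hJ : IsClosed J) (hJ' : LocCone J) :
    IsCompact {x ∈ X | l x ∈ J} ∧ LocCone {x ∈ X | l x ∈ J} :=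
  Bd.Bas1.cpt_pre hX hc (pl_aff l hc.conicalSet) hJ hJ'

theorem locCone_Ici : LocCone (Ici (1 : ℝ)) :=
  locCone_setOf_ge continuous_id (conicalOn_id conicalSet_univ) 1

/-- the band of a translation -/
noncomputable def tb (l : E →ᵃ[ℝ] ℝ) (v : E) (X : Set E) : Band E where
  B := {x ∈ X | |l x| ≤ 1}
  u := fun x => cl (l x)
  M := fun q => q.1 + (q.2 - l q.1) • v

theorem tb_nb (l : E →ᵃ[ℝ] ℝ) {v : E} (hv : l.linear v = 1) {X : Set E} (hX : IsCompact X)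
    (hc : LocCone X) (h : ∀ x ∈ X, |l x| ≤ 1 → ∀ r ∈ I, x + (r - l x) • v ∈ X) :
    Nb (tb l v X) X l := by
  have e : {x ∈ X | |l x| ≤ 1} = {x ∈ X | l x ∈ I} :=
    Set.ext fun x => and_congr_right fun _ => abs_le
  have hB := cut_aff l hX hc isClosed_Icc Bd.Bas2.locCone_I
  rw [← e] at hB
  have hl : ∀ (x : E) (r : ℝ), l (x + (r - l x) • v) = r := fun x r => by rw [aff, hv]; ring
  have hu := Bd.Bas1.pl_cl (pl_aff l hc.conicalSet)
  have hs := conicalSet_prod hB.2.conicalSet Bd.Bas2.cs_I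
  refine ⟨⟨⟨hB.1, hB.2, pl_mono hu hB.2.conicalSet fun x hx => hx.1, ?_,
    fun x _ => Bd.Bas1.cl_mem _, fun x hx r hr => ⟨⟨h x hx.1 hx.2 r hr, ?_⟩, ?_⟩,
    fun x hx => ?_, fun x hx r hr t ht => ?_⟩, fun x hx => hx.1, hu, fun x hx hn => ?_⟩,
    fun x hx => and_iff_right hx, fun _ _ => rfl⟩
  · exact pl_add (pl_fst hs) (pl_comp_univ (g := fun t : ℝ => t • v)
      (pl_clm (ContinuousLinearMap.toSpanSingleton ℝ v) conicalSet_univ) (pl_sub (pl_snd hs)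
        (pl_comp_univ (g := fun x => l x) (pl_aff l conicalSet_univ) (pl_fst hs))))
  · exact (congrArg abs (hl x r)).trans_le (abs_le.2 hr)
  · exact (congrArg cl (hl x r)).trans (Bd.Bas1.cl_of_mem hr)
  · change x + (cl (l x) - l x) • v = x
    rw [Bd.Bas1.cl_of_mem (abs_le.1 hx.2), sub_self, zero_smul, add_zero]
  · change x + (r - l x) • v + (t - l (x + (r - l x) • v)) • v = x + (t - l x) • v
    rw [hl, add_assoc, ← add_smul]
    congr 2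
    ring
  · rcases lt_abs.1 (not_le.1 fun h' => hn ⟨hx, h'⟩) with h1 | h1
    exacts [Or.inl (Bd.Bas1.cl_of_ge h1.le), Or.inr (Bd.Bas1.cl_of_le (by linarith))]

theorem glue2 (h3 : NGLUE) {X Y : Set E} {b c : Band E} {f : E → ℝ} (hX : IsClosed X)
    (hY : IsClosed Y) (hb : Nb b X f) (hc : Nb c Y f)
    (h : ∀ x ∈ b.B, x ∈ c.B → ∀ s ∈ I, b.M (x, s) = c.M (x, s)) :
    ∃ g : Band E, Nb g (X ∪ Y) f ∧ Agree g b ∧ Agree g c := by
  obtain ⟨g, h1, h2⟩ := h3 (fun a : Bool => bif a then X else Y) (fun a => bif a then b else c) f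
    (by rintro (_ | _); exacts [⟨hY, hc⟩, ⟨hX, hb⟩]) (by
      rintro (_ | _) (_ | _) x h1 h2 s hs
      exacts [rfl, (h x h2 h1 s hs).symm, h x h1 h2 s hs, rfl])
  exact ⟨g, by rwa [union_eq_iUnion], h2 true, h2 false⟩

/-- the parallelogram lies in the interior -/
def Par (l m : E →ᵃ[ℝ] ℝ) (v w : E) (Q : Set E) : Prop := ∀ x ∈ Q, |l x| ≤ 1 → |m x| ≤ 1 →
  ∀ r ∈ I, ∀ t ∈ I, x + (r - l x) • v + (t - m x) • w ∈ intrinsicInterior ℝ Q

theorem Par.off {l m : E →ᵃ[ℝ] ℝ} {v w : E} {Q : Set E} (hp : Par l m v w Q) (hQ : IsClosed Q)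
    {a : Band E} (ha : Nb a (intrinsicFrontier ℝ Q) l) {x : E} (hx : x ∈ a.B) :
    x ∈ Q ∧ |l x| ≤ 1 ∧ 1 < |m x| := by
  have h1 := ha.on.sub hx
  have h2 := (ha.mem x h1).1 hx
  rw [intrinsicFrontier_eq hQ] at h1
  refine ⟨h1.1, h2, not_le.1 fun h3 => h1.2 ?_⟩
  simpa using hp x h1.1 h2 h3 _ (abs_le.1 h2) _ (abs_le.1 h3)

/-- the part beyond the parallelogram -/
theorem half (h1 : RINT) (h3 : NGLUE) {l m : E →ᵃ[ℝ] ℝ} {v w : E} {Q : Set E} {a : Band E}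
    (hQ : IsCompact Q) (hc : Convex ℝ Q) (hL : LocCone Q) (ha : Nb a (intrinsicFrontier ℝ Q) l)
    (e1 : l.linear v = 1) (e2 : m.linear v = 0) (e3 : l.linear w = 0) (e4 : m.linear w = 1)
    (hp : Par l m v w Q) {x₀ : E} (h0 : x₀ ∈ Q) (hl : |l x₀| ≤ 1) (hm : |m x₀| ≤ 1) :
    Both {x ∈ Q | 1 ≤ m x} l 1 ∧
    intrinsicInterior ℝ {x ∈ Q | 1 ≤ m x} = {x ∈ intrinsicInterior ℝ Q | 1 < m x} ∧
    ∃ a' : Band E, Nb a' (intrinsicFrontier ℝ {x ∈ Q | 1 ≤ m x}) l ∧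
      (∀ x ∈ a.B, 1 ≤ m x → x ∈ a'.B ∧ ∀ r ∈ I, a'.M (x, r) = a.M (x, r)) ∧
      ∀ x ∈ Q, |l x| ≤ 1 → m x = 1 → x ∈ a'.B ∧ ∀ r ∈ I, a'.M (x, r) = x + (r - l x) • v := by
  have i1 : (1 : ℝ) ∈ I := ⟨by norm_num, le_rfl⟩
  have i2 : (-1 : ℝ) ∈ I := ⟨le_rfl, by norm_num⟩
  have hb : ∀ r ∈ I, ∀ t ∈ I, ∀ r' ∈ I, ∀ t' ∈ I, ∃ y ∈ Q, ∃ τ : ℝ, 1 < τ ∧
      l y = (1 - τ) * r + τ * r' ∧ m y = (1 - τ) * t + τ * t' := fun r hr t ht r' hr' t' ht' => by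
    obtain ⟨τ, h4, h5⟩ := exists_beyond (intrinsicInterior_subset (hp x₀ h0 hl hm r hr t ht))
      (hp x₀ h0 hl hm r' hr' t' ht')
    refine ⟨_, h5, τ, h4, ?_, ?_⟩ <;>
      simp only [AffineMap.apply_lineMap, AffineMap.lineMap_apply_ring, aff, e1, e2, e3, e4] <;>
      ring
  have hi := ((h1 hc).2.2 m).1 1
    ⟨_, intrinsicInterior_subset (hp x₀ h0 hl hm 1 i1 (-1) i2), by simp [aff, e2, e4]⟩
    (by obtain ⟨y, h4, τ, h5, -, h6⟩ := hb 1 i1 (-1) i2 1 i1 1 i1; exact ⟨y, h4, by linarith⟩)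
  refine ⟨⟨?_, ?_⟩, hi.2.2, ?_⟩
  · obtain ⟨y, h4, τ, h5, h6, h7⟩ := hb 1 i1 1 i1 (-1) i2 1 i1
    exact ⟨y, ⟨h4, by linarith⟩, by linarith⟩
  · obtain ⟨y, h4, τ, h5, h6, h7⟩ := hb (-1) i2 1 i1 1 i1 1 i1
    exact ⟨y, ⟨h4, by linarith⟩, by linarith⟩
  have cm := m.continuous_of_finiteDimensional
  have hB := cut_aff m ha.on.ok.cpt ha.on.ok.loc isClosed_Ici locCone_Ici
  have n1 : Nb ⟨{x ∈ a.B | m x ∈ Ici 1}, a.u, a.M⟩ (intrinsicFrontier ℝ Q ∩ {x | 1 ≤ m x}) l :=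
    ⟨⟨Bd.Bas2.ok_sub ha.on.ok hB.1 hB.2 (fun x hx => hx.1) fun x hx r hr =>
        ⟨(ha.on.ok.Mmem x hx.1 r hr).1, (sgn_keep (f := fun s => m (a.M (x, s))) isPreconnected_Icc
          (cm.comp_continuousOn (Bd.Bas1.cont_fibre ha.on.ok hx.1))
          (fun s hs => (hp.off hQ.isClosed ha (ha.on.ok.Mmem x hx.1 s hs).1).2.2)
          (ha.on.ok.urange x hx.1) hr (by rw [ha.on.ok.Mid x hx.1]; exact hx.2)).le⟩,
      fun x hx => ⟨ha.on.sub hx.1, hx.2⟩,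
      pl_mono ha.on.upl ((pl_set ha.on.upl).inter (locCone_setOf_ge cm
        (conicalOn_of_affine m conicalSet_univ) 1).conicalSet) inter_subset_left,
      fun x hx hn => ha.on.out x hx.1 fun h => hn ⟨h, hx.2⟩⟩,
      fun x hx => (and_iff_left hx.2).trans (ha.mem x hx.1), fun x hx => ha.u_eq x hx.1⟩
  have hX := cut_aff m hQ hL isClosed_singleton (Bd.Bas2.locCone_single 1)
  have n2 := tb_nb l e1 hX.1 hX.2 fun x hx h4 r hr => ⟨intrinsicInterior_subset (by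
    have h5 : m x = 1 := hx.2
    simpa [h5] using hp x hx.1 h4 (by simp [h5]) r hr 1 i1), by simpa [aff, e2] using hx.2⟩
  obtain ⟨g, g1, g2, g3⟩ := glue2 h3
    (isClosed_intrinsicFrontier (AffineSubspace.closed_of_finiteDimensional _) |>.inter
      (isClosed_le continuous_const cm)) hX.1.isClosed n1 n2 fun x h4 h5 => by
      have h6 := (hp.off hQ.isClosed ha h4.1).2.2
      rw [show m x = 1 from h5.1.2, abs_one] at h6
      exact absurd h6 (lt_irrefl _)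
  have e : intrinsicFrontier ℝ {x ∈ Q | 1 ≤ m x} =
      intrinsicFrontier ℝ Q ∩ {x | 1 ≤ m x} ∪ {x ∈ Q | m x ∈ ({1} : Set ℝ)} := by
    rw [intrinsicFrontier_eq (s := {x ∈ Q | 1 ≤ m x})
      (cut_aff m hQ hL isClosed_Ici locCone_Ici).1.isClosed, hi.2.2,
      intrinsicFrontier_eq hQ.isClosed]
    ext x
    constructor
    · rintro ⟨⟨h4, h5⟩, h6⟩
      exact (eq_or_lt_of_le h5).elim (fun h7 => Or.inr ⟨h4, h7.symm⟩)
        fun h7 => Or.inl ⟨⟨h4, fun h8 => h6 ⟨h8, h7⟩⟩, h5⟩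
    · rintro (⟨h4, h5⟩ | ⟨h4, h5⟩)
      · exact ⟨⟨h4.1, h5⟩, fun h6 => h4.2 h6.1⟩
      · exact ⟨⟨h4, (show m x = 1 from h5).ge⟩, fun h6 => h6.2.ne' h5⟩
  refine ⟨g, e ▸ g1, fun x hx h4 => ⟨?_, g2 x ⟨hx, h4⟩⟩, fun x hx h4 h5 =>
    ⟨(g1.mem x (Or.inr ⟨hx, h5⟩)).2 h4, g3 x ⟨⟨hx, h5⟩, h4⟩⟩⟩
  exact (g1.mem x (Or.inl ⟨ha.on.sub hx, h4⟩)).2 (hp.off hQ.isClosed ha hx).2.1

end Exz

open Exz

theorem exz_of (h1 : RINT) (h2 : EXCVX) (h3 : NGLUE) : EXZ := by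
  intro E _ _ _ κ l m v w s
  classical
  induction s using Finset.induction_on with
  | empty =>
    intro Q a hQ hc hL hb ha _
    obtain ⟨b, h4, h5⟩ := h2 l hQ hc hL hb a ha
    exact ⟨b, h4, h5, by simp⟩
  | insert j s hj ih =>
    intro Q a hQ hc hL hb ha hz
    have hs : ∀ {k}, k ∈ s → k ∈ insert j s := Finset.mem_insert_of_mem
    have hj' := Finset.mem_insert_self j s
    by_cases h0 : ∃ x ∈ Q, |l x| ≤ 1 ∧ |m j x| ≤ 1
    swap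
    · obtain ⟨b, h4, h5, h6⟩ := ih a hQ hc hL hb ha fun k hk x hx h4 h5 =>
        (hz k (hs hk) x hx h4 h5).imp_right fun h => ⟨fun k' hk' => h.1 k' (hs hk'), h.2⟩
      refine ⟨b, h4, h5, Finset.forall_mem_insert .. |>.2 ⟨fun x hx h7 h8 => ?_, h6⟩⟩
      exact (h0 ⟨x, hx, h7, h8⟩).elim
    obtain ⟨x₀, h0, hl, hm⟩ := h0
    obtain ⟨e1, e2, e3, e4⟩ := (hz j hj' x₀ h0 hl hm).1
    have hoff : ∀ k ∈ s, ∀ x ∈ Q, |l x| ≤ 1 → |m k x| ≤ 1 → 1 < |m j x| := fun k hk x hx h4 h5 =>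
      (hz k (hs hk) x hx h4 h5).2.1 j hj' fun e => hj (e ▸ hk)
    have hp : Par l (m j) (v j) (w j) Q := fun x hx h4 h5 => (hz j hj' x hx h4 h5).2.2
    have key : ∀ (n : E →ᵃ[ℝ] ℝ) (w' : E), (∀ x, |n x| = |m j x|) → n.linear (v j) = 0 →
        l.linear w' = 0 → n.linear w' = 1 → Par l n (v j) w' Q →
        ∃ b : Band E, IsClosed {x ∈ Q | 1 ≤ n x} ∧ Nb b {x ∈ Q | 1 ≤ n x} l ∧
          (∀ x ∈ a.B, 1 ≤ n x → ∀ r ∈ I, b.M (x, r) = a.M (x, r)) ∧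
          (∀ x ∈ Q, |l x| ≤ 1 → n x = 1 → ∀ r ∈ I, b.M (x, r) = x + (r - l x) • v j) ∧
          ∀ k ∈ s, ∀ x ∈ Q, 1 ≤ n x → |l x| ≤ 1 → |m k x| ≤ 1 →
            ∀ r ∈ I, b.M (x, r) = x + (r - l x) • v k := fun n w' hn f2 f3 f4 hp' => by
      obtain ⟨g1, g2, a', g3, g4, g5⟩ :=
        half h1 h3 hQ hc hL ha e1 f2 f3 f4 hp' h0 hl (by rwa [hn])
      have hX := cut_aff n hQ hL isClosed_Ici locCone_Ici
      obtain ⟨b, b1, b2, b3⟩ := ih a' hX.1 (hc.inter ((convex_Ici 1).affine_preimage n)) hX.2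
        g1 g3 fun k hk x hx h4 h5 => by
        obtain ⟨h6, h7, h8⟩ := hz k (hs hk) x hx.1 h4 h5
        refine ⟨h6, fun k' hk' => h7 k' (hs hk'), fun r hr t ht => ?_⟩
        refine g2.ge ⟨h8 r hr t ht, sgn_keep (S := Q ∩ (l ⁻¹' I ∩ m k ⁻¹' I))
          (hc.inter (((convex_Icc _ _).affine_preimage l).inter
            ((convex_Icc _ _).affine_preimage (m k)))).isPreconnected
          n.continuous_of_finiteDimensional.continuousOn
          (fun y hy => hn y ▸ hoff k hk y hy.1 (abs_le.2 hy.2.1) (abs_le.2 hy.2.2))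
          ⟨hx.1, abs_le.1 h4, abs_le.1 h5⟩
          ⟨intrinsicInterior_subset (h8 r hr t ht), ?_, ?_⟩ hx.2⟩
        · simpa [aff, h6.1, h6.2.2.1] using hr
        · simpa [aff, h6.2.1, h6.2.2.2] using ht
      exact ⟨b, hX.1.isClosed, b1,
        fun x hx h4 r hr => (b2 x (g4 x hx h4).1 r hr).trans ((g4 x hx h4).2 r hr),
        fun x hx h4 h5 r hr => (b2 x (g5 x hx h4 h5).1 r hr).trans ((g5 x hx h4 h5).2 r hr),
        fun k hk x hx h4 => b3 k hk x ⟨hx, h4⟩⟩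
    obtain ⟨b, c1, p1, p2, p3, p4⟩ := key (m j) (w j) (fun _ => rfl) e2 e3 e4 hp
    obtain ⟨b', c2, q1, q2, q3, q4⟩ := key (-m j) (-w j) (fun x => abs_neg _) (by simp [e2])
      (by simp [e3]) (by simp [e4]) fun x hx h4 h5 r hr t ht => by
        convert hp x hx h4 (by simpa using h5) r hr (-t) ⟨neg_le_neg ht.2, by linarith [ht.1]⟩
          using 2
        simp only [AffineMap.coe_neg, Pi.neg_apply]
        module
    simp only [AffineMap.coe_neg, Pi.neg_apply] at c2 q1 q2 q3 q4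
    obtain ⟨g, g1, g2, g3⟩ := glue2 h3 c1 c2 p1 q1 fun x h4 h5 => by
      linarith [(p1.on.sub h4).2, (q1.on.sub h5).2]
    have hX := cut_aff (m j) hQ hL isClosed_Icc Bd.Bas2.locCone_I
    have n0 := tb_nb l e1 hX.1 hX.2 fun x hx h4 r hr => ⟨intrinsicInterior_subset (by
      simpa using hp x hx.1 h4 (abs_le.2 hx.2) r hr _ hx.2), by simpa [aff, e2] using hx.2⟩
    obtain ⟨f, f1, f2, f3⟩ := glue2 h3 (c1.union c2) hX.1.isClosed g1 n0 fun x h4 h5 r hr => by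
      rcases g1.on.sub h4 with h6 | h6
      · exact (g2 x ((p1.mem x h6).2 h5.2) r hr).trans
          (p3 x h6.1 h5.2 (le_antisymm h5.1.2.2 h6.2) r hr)
      · exact (g3 x ((q1.mem x h6).2 h5.2) r hr).trans
          (q3 x h6.1 h5.2 (le_antisymm (by linarith [h5.1.2.1]) h6.2) r hr)
    have hf : ∀ x ∈ Q, |l x| ≤ 1 → 1 < |m j x| → ∀ r ∈ I,
        1 ≤ m j x ∧ f.M (x, r) = b.M (x, r) ∨ 1 ≤ -m j x ∧ f.M (x, r) = b'.M (x, r) :=
      fun x hx h4 h5 r hr => (lt_abs.1 h5).imp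
        (fun h6 => ⟨h6.le, (f2 x ((g1.mem x (Or.inl ⟨hx, h6.le⟩)).2 h4) r hr).trans
          (g2 x ((p1.mem x ⟨hx, h6.le⟩).2 h4) r hr)⟩)
        fun h6 => ⟨h6.le, (f2 x ((g1.mem x (Or.inr ⟨hx, h6.le⟩)).2 h4) r hr).trans
          (g3 x ((q1.mem x ⟨hx, h6.le⟩).2 h4) r hr)⟩
    refine ⟨f, ?_, fun x hx r hr => ?_, Finset.forall_mem_insert .. |>.2
      ⟨fun x hx h4 h5 => f3 x ⟨⟨hx, abs_le.1 h5⟩, h4⟩, fun k hk x hx h4 h5 r hr => ?_⟩⟩
    · convert f1 using 1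
      refine Subset.antisymm (fun x hx => ?_)
        (union_subset (union_subset (sep_subset _ _) (sep_subset _ _)) (sep_subset _ _))
      rcases le_total 1 (m j x) with h4 | h4
      · exact Or.inl (Or.inl ⟨hx, h4⟩)
      rcases le_total 1 (-m j x) with h5 | h5
      · exact Or.inl (Or.inr ⟨hx, h5⟩)
      · exact Or.inr ⟨hx, by linarith, h4⟩
    · obtain ⟨h4, h5, h6⟩ := hp.off hQ.isClosed ha hx
      exact (hf x h4 h5 h6 r hr).elim (fun h => h.2.trans (p2 x hx h.1 r hr))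
        fun h => h.2.trans (q2 x hx h.1 r hr)
    · exact (hf x hx h4 (hoff k hk x hx h4 h5) r hr).elim
        (fun h => h.2.trans (p4 k hk x hx h.1 h4 h5 r hr))
        fun h => h.2.trans (q4 k hk x hx h.1 h4 h5 r hr)

end P073.Nt
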