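import Vale.Agent.P073Y.Nt.Exz

/-!
# Two families of natural bands on a convex cell
-/

open Set Metric Topology Filter

namespace P073.Nt

open P073.Bd (Band I cl Comm Ext)
open P073.Fl (lev Both)
open Exz

namespace Gcvx

variable {E : Type} [NormedAddCommGroup E] [NormedSpace ℝ E]

/-- a line which misses the relative frontier stays inside -/
theorem ray {Q : Set E} (hQ : IsClosed Q) {x d : E} (hx : x ∈ Q) (hd : d ∈ vectorSpan ℝ Q)
    {S : Set ℝ} (hS : IsPreconnected S) (h0 : (0 : ℝ) ∈ S)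
    (h : ∀ τ ∈ S, x + τ • d ∈ Q → x + τ • d ∈ intrinsicInterior ℝ Q) :
    ∀ τ ∈ S, x + τ • d ∈ intrinsicInterior ℝ Q := by
  let γ : ℝ → affineSpan ℝ Q := fun τ => ⟨x + τ • d, by
    rw [add_comm, ← vadd_eq_add]
    exact AffineSubspace.vadd_mem_of_mem_direction
      (Submodule.smul_mem _ τ (by rwa [direction_affineSpan])) (subset_affineSpan ℝ Q hx)⟩
  have c1 : Continuous fun τ : ℝ => x + τ • d := by fun_prop
  have hm : ∀ τ, x + τ • d ∈ intrinsicInterior ℝ Q ↔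
      γ τ ∈ interior ((↑) ⁻¹' Q : Set (affineSpan ℝ Q)) := fun τ =>
    mem_intrinsicInterior.trans ⟨fun ⟨y, h1, h2⟩ => by rwa [show γ τ = y from Subtype.ext h2.symm],
      fun h1 => ⟨_, h1, rfl⟩⟩
  refine hS.subset_of_closure_inter_subset (u := {τ | x + τ • d ∈ intrinsicInterior ℝ Q}) ?_
    ⟨0, h0, h 0 h0 (by simpa using hx)⟩ fun τ hτ => h τ hτ.2
      (closure_minimal (t := (fun τ : ℝ => x + τ • d) ⁻¹' Q)
        (fun _ h1 => intrinsicInterior_subset (𝕜 := ℝ) (s := Q) h1) (hQ.preimage c1) hτ.1)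
  simp only [hm]
  exact isOpen_interior.preimage (c1.subtype_mk _)

variable [FiniteDimensional ℝ E]

theorem exists_dir {Q : Set E} (hQ : IsCompact Q) {l m : E →ᵃ[ℝ] ℝ}
    (h : ∀ x ∈ Q, |l x| ≤ 1 → |m x| ≤ 1 → x ∈ intrinsicInterior ℝ Q)
    (h2 : 2 ≤ Module.finrank ℝ (vectorSpan ℝ Q)) {x : E} (hx : x ∈ Q) (hl : |l x| ≤ 1)
    (hm : |m x| ≤ 1) : ∃ v ∈ vectorSpan ℝ Q, l.linear v = 1 ∧ m.linear v = 0 := by
  let φ := (l.linear.prod m.linear).domRestrict (vectorSpan ℝ Q)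
  have hi : Function.Injective φ := (injective_iff_map_eq_zero φ).2 fun d hd => by
    by_contra h0
    have h1 : l.linear d = 0 := congrArg Prod.fst hd
    have h3 : m.linear d = 0 := congrArg Prod.snd hd
    have h4 := ray hQ.isClosed hx d.2 isPreconnected_univ (mem_univ _) fun τ _ h4 =>
      h _ h4 (by simpa [aff, h1] using hl) (by simpa [aff, h3] using hm)
    obtain ⟨C, hC⟩ := hQ.isBounded.subset_closedBall x
    have h5 : 0 < ‖(d : E)‖ := norm_pos_iff.2 fun h5 => h0 (Subtype.ext h5)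
    have h6 := hC (intrinsicInterior_subset (h4 ((|C| + 1) / ‖(d : E)‖) (mem_univ _)))
    rw [mem_closedBall, dist_self_add_left, norm_smul, Real.norm_of_nonneg (by positivity),
      div_mul_cancel₀ _ h5.ne'] at h6
    linarith [le_abs_self C]
  have h3 := LinearMap.finrank_le_finrank_of_injective hi
  obtain ⟨v, hv⟩ := (LinearMap.injective_iff_surjective_of_finrank_eq_finrank
    (le_antisymm h3 (by simpa using h2))).1 hi (1, 0)
  exact ⟨v, v.2, congrArg Prod.fst hv, congrArg Prod.snd hv⟩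

end Gcvx

open Gcvx

theorem gcvx_of (h1 : EXZ) (h2 : EXOFF) : GCVX := by
  intro E _ _ _ ι _ fam Q l hQ hc hL hb hz a ha
  classical
  have := Fintype.ofFinite ι
  have hi : ∀ i j, i ≠ j → ∀ x ∈ Q, |l i x| ≤ 1 → |l j x| ≤ 1 → x ∈ intrinsicInterior ℝ Q :=
    fun i j hij x hx h3 h4 => (diff_intrinsicFrontier hQ.isClosed).le
      ⟨hx, (hz i j hij x hx h3 h4).2.1⟩
  have hV : ∀ i j, ∃ v, i ≠ j → ∀ x ∈ Q, |l i x| ≤ 1 → |l j x| ≤ 1 →
      v ∈ vectorSpan ℝ Q ∧ (l i).linear v = 1 ∧ (l j).linear v = 0 := fun i j => by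
    by_cases h : i ≠ j ∧ ∃ x ∈ Q, |l i x| ≤ 1 ∧ |l j x| ≤ 1
    · obtain ⟨hij, x, hx, h3, h4⟩ := h
      exact (exists_dir hQ (hi i j hij) (hz i j hij x hx h3 h4).2.2 hx h3 h4).imp
        fun v hv _ _ _ _ _ => hv
    · exact ⟨0, fun hij x hx h3 h4 => (h ⟨hij, x, hx, h3, h4⟩).elim⟩
  choose V hV using hV
  have hB : ∀ i, ∃ b : Band E, Nb b Q (l i) ∧ Agree b (a i) ∧ ∀ j, i ≠ j → ∀ x ∈ Q,
      |l i x| ≤ 1 → |l j x| ≤ 1 → ∀ r ∈ I, b.M (x, r) = x + (r - l i x) • V i j := fun i => by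
    rcases hb i with h | h
    · obtain ⟨b, h3, h4⟩ := h2 (intrinsicFrontier_subset hQ.isClosed) hL.conicalSet
        (l i).continuous_of_finiteDimensional.continuousOn h (a i) (ha i)
      exact ⟨b, h3, h4, fun j _ x hx h5 => absurd (h x hx) (not_lt.2 h5)⟩
    obtain ⟨b, h3, h4, h5⟩ := h1 (l i) l (V i) (fun j => V j i) (Finset.univ.erase i) (a i) hQ hc
      hL h (ha i) fun j hj x hx h3 h4 => by
      have hij := (Finset.ne_of_mem_erase hj).symm
      obtain ⟨v1, v2, v3⟩ := hV i j hij x hx h3 h4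
      obtain ⟨w1, w2, w3⟩ := hV j i hij.symm x hx h4 h3
      refine ⟨⟨v2, v3, w3, w2⟩, fun k hk hkj => not_le.1 fun h5 => ?_, fun r hr t ht => ?_⟩
      · have f1 := (hz i j hij x hx h3 h4).1
        have f2 := (hz k i (Finset.ne_of_mem_erase hk) x hx h5 h3).1
        have f3 := (hz k j hkj x hx h5 h4).1
        revert f1 f2 f3
        cases fam i <;> cases fam j <;> cases fam k <;> simp
      · have key : ∀ τ ∈ Icc (0 : ℝ) 1, ∀ a ∈ I, ∀ b ∈ I, |a + τ * (b - a)| ≤ 1 :=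
          fun τ hτ a ha b hb => abs_le.2 ⟨by nlinarith [hτ.1, hτ.2, ha.1, hb.1],
            by nlinarith [hτ.1, hτ.2, ha.2, hb.2]⟩
        simpa [add_assoc] using ray hQ.isClosed hx (add_mem (Submodule.smul_mem _ (r - l i x) v1)
          (Submodule.smul_mem _ (t - l j x) w1)) isPreconnected_Icc (left_mem_Icc.2 zero_le_one)
          (fun τ hτ h5 => hi i j hij _ h5
            (by rw [aff]; simpa [v2, w3] using key τ hτ _ (abs_le.1 h3) r hr)
            (by rw [aff]; simpa [v3, w2] using key τ hτ _ (abs_le.1 h4) t ht))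
          1 (right_mem_Icc.2 zero_le_one)
    exact ⟨b, h3, h4, fun j hij => h5 j (Finset.mem_erase.2 ⟨hij.symm, Finset.mem_univ j⟩)⟩
  choose b b1 b2 b3 using hB
  refine ⟨b, fun i => ⟨b1 i, b2 i⟩, fun i j hij x hx s hs => ?_⟩
  have hm : ∀ i {y}, y ∈ (b i).B → y ∈ Q ∧ |l i y| ≤ 1 := fun i y hy =>
    ⟨(b1 i).on.sub hy, ((b1 i).mem y ((b1 i).on.sub hy)).1 hy⟩
  have hk : ∀ i j, i ≠ j → ∀ y ∈ (b i).B, y ∈ (b j).B → ∀ r ∈ I,
      l j ((b i).M (y, r)) = l j y ∧ (b i).M (y, r) ∈ (b j).B := fun i j hij y h3 h4 r hr => by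
    have h5 : l j ((b i).M (y, r)) = l j y := by
      rw [b3 i j hij y (hm i h3).1 (hm i h3).2 (hm j h4).2 r hr, aff,
        (hV i j hij y (hm i h3).1 (hm i h3).2 (hm j h4).2).2.2, mul_zero, add_zero]
    exact ⟨h5, ((b1 j).mem _ (hm i ((b1 i).on.ok.Mmem y h3 r hr).1).1).2 (h5 ▸ (hm j h4).2)⟩
  have ok := (b1 i).on.ok
  have hy := (ok.Mmem x hx s hs).1
  refine ⟨⟨fun h => ?_, fun h => (hk i j hij x hx h s hs).2⟩, fun h => ⟨?_, fun t ht => ?_⟩⟩
  · have := (hk i j hij _ hy h _ (ok.urange x hx)).2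
    rwa [ok.MM x hx s hs _ (ok.urange x hx), ok.Mid x hx] at this
  · rw [(b1 j).u_eq _ (hm i hy).1, (b1 j).u_eq _ (hm i hx).1, (hk i j hij x hx h s hs).1]
  · obtain ⟨h3, h4⟩ := hk i j hij x hx h s hs
    obtain ⟨h5, h6⟩ := hk j i hij.symm x h hx t ht
    rw [b3 j i hij.symm _ (hm i hy).1 (hm j h4).2 (hm i hy).2 t ht, h3,
      b3 i j hij _ (hm i h6).1 (hm i h6).2 (hm j ((b1 j).on.ok.Mmem x h t ht).1).2 s hs, h5,
      b3 i j hij x (hm i hx).1 (hm i hx).2 (hm j h).2 s hs,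
      b3 j i hij.symm x (hm i hx).1 (hm j h).2 (hm i hx).2 t ht, add_right_comm]

end P073.Nt
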