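import Vale.Agent.P073Y.Nt.Sk
import Vale.Agent.P073Y.Bd.Map
import Vale.Agent.P073Z.A3

/-!
# Cells which are convex in a chart
-/

open Set Metric Topology Filter

namespace P073.Nt

open P073.Bd

variable {E F : Type} [NormedAddCommGroup E] [NormedSpace ℝ E] [FiniteDimensional ℝ E]
  [NormedAddCommGroup F] [NormedSpace ℝ F] [FiniteDimensional ℝ F]

/-- transport of natural bands -/
theorem nb_map {X : Set E} {Y : Set F} (φ : ConHomeo X Y) {b : Band E} {f : E → ℝ} {g : F → ℝ}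
    (hb : Nb b X f) (hg : ∀ x ∈ X, f x = g (φ.toFun x)) : Nb (b.map φ) Y g := by
  refine ⟨Mp.map_on φ hb.on, fun y hy => ?_, fun y hy => ?_⟩
  · have hx := φ.mapsTo_inv hy
    rw [← φ.right_inv hy, Mp.map_B, Mp.mem_image_iff φ hb.on.sub hx, hb.mem _ hx, hg _ hx]
  · have hx := φ.mapsTo_inv hy
    rw [← φ.right_inv hy, Mp.map_u φ b hx, hb.u_eq _ hx, hg _ hx]

/-- transport of the extension property -/
theorem good_map {ι : Type} {C S : Set E} {Q T : Set F} (φ : ConHomeo C Q) (hS : ConicalSet S)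
    (hSC : S ⊆ C) (hT : φ.toFun '' S = T) {f : ι → E → ℝ} {g : ι → F → ℝ}
    (hg : ∀ i, ∀ x ∈ C, f i x = g i (φ.toFun x)) (h : Good Q T g) : Good C S f := by
  intro a ha
  let ψ : ConHomeo S T := (φ.restr hS hSC).cast rfl hT
  obtain ⟨b, hb, hc⟩ := h (fun i => (a i).map ψ) fun i =>
    nb_map ψ (ha i) fun x hx => hg i x (hSC hx)
  refine ⟨fun i => (b i).map φ.symm, fun i => ⟨nb_map φ.symm (hb i).1 fun y hy => ?_,
    fun x hx s hs => ?_⟩, fun i j hij => Mp.map_comm φ.symm (hb i).1.on.ok (hb j).1.on.ok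
      (hb i).1.on.sub (hb j).1.on.sub (hc i j hij)⟩
  · rw [hg i _ (φ.symm.mapsTo hy)]
    exact congrArg _ (φ.right_inv hy).symm
  · have hxS := (ha i).on.sub hx
    have h1 := (hb i).2 (ψ.toFun x) (mem_image_of_mem _ hx) s hs
    rw [Mp.map_M ψ _ hxS] at h1
    show φ.invFun ((b i).M (ψ.toFun x, s)) = _
    rw [h1]
    exact φ.left_inv (hSC ((ha i).on.sub ((ha i).on.ok.Mmem x hx s hs).1))

theorem glin_of (h1 : GCVX) (h2 : DIMU) : GLIN := by
  intro E _ _ _ ι _ fam n C S f hC hL hob hz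
  obtain ⟨Q, φ, l, hQ, hS, hf⟩ := hL
  have hQc : IsCompact Q := φ.isCompact_right hC.isCompact
  have hball : ConBall n Q (intrinsicFrontier ℝ Q) := by
    have := hC.image φ Subset.rfl
    rwa [φ.image_eq, hS] at this
  have hQl : LocCone Q := by
    obtain ⟨-, χ, -⟩ := hball
    have := img (isCompact_closedBall _ _) (locCone_closedBall_pi n 1) ⟨χ.cont_inv, χ.conical_inv⟩
    rwa [show χ.invFun '' closedBall 0 1 = Q from χ.symm.image_eq] at this
  have hne : Q.Nonempty := by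
    obtain ⟨-, χ, -⟩ := hball
    exact ⟨_, χ.mapsTo_inv (mem_closedBall_self zero_le_one)⟩
  have hn := h2 hball (cvx hQc hQ hQl hne)
  refine good_map φ hC.conicalSet_bdry hC.1 hS hf (h1 fam l hQc hQ hQl (fun i => ?_) ?_)
  · rcases hob i with h | ⟨⟨x, hx, h⟩, ⟨y, hy, h'⟩⟩
    · refine Or.inl fun y hy => ?_
      rw [← φ.right_inv hy, ← hf i _ (φ.mapsTo_inv hy)]
      exact h _ (φ.mapsTo_inv hy)
    · exact Or.inr ⟨⟨_, φ.mapsTo hx, hf i x hx ▸ h⟩, ⟨_, φ.mapsTo hy, hf i y hy ▸ h'⟩⟩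
  · intro i j hij y hy hi hj
    have hx := φ.mapsTo_inv hy
    rw [← φ.right_inv hy, ← hf _ _ hx] at hi hj
    obtain ⟨a1, a2, a3⟩ := hz i j hij _ hx hi hj
    refine ⟨a1, fun hm => a2 ?_, hn ▸ a3⟩
    rw [← hS, ← φ.right_inv hy] at hm
    exact (Mp.mem_image_iff φ hC.1 hx).1 hm

end P073.Nt
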