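import Vale.Agent.P073Y.Nt.Sk
import Vale.Agent.P073Y.Bd.Bas
import Vale.Agent.P073Z.SHELL.A

/-!
# The band of a level preserving chart
-/

open Set Metric Topology Filter

namespace P073.Nt

open P073.Bd

theorem ofch_cl_out {t : ℝ} (h : ¬ |t| ≤ 1) : cl t = 1 ∨ cl t = -1 := by
  rcases le_total 0 t with h0 | h0
  · rw [abs_of_nonneg h0] at h
    exact Or.inl (Bas1.cl_of_ge (not_le.1 h).le)
  · rw [abs_of_nonpos h0] at h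
    exact Or.inr (Bas1.cl_of_le (by linarith [not_le.1 h]))

theorem ofch : OFCH := by
  intro E F _ _ _ _ _ _ D X f Θ hc hl hpl hf
  have hB := hl.conicalSet
  have hP : ConicalSet ({x ∈ X | |f x| ≤ 1} ×ˢ I) := Sh.conicalSet_prod hB Bas2.cs_I
  have k0 : ContinuousOn (fun q : E × ℝ => Θ.invFun q.1) ({x ∈ X | |f x| ≤ 1} ×ˢ I) :=
    Θ.cont_inv.comp continuousOn_fst fun _ hq => hq.1
  have k1 : ContinuousOn (fun q : E × ℝ => ((Θ.invFun q.1).1, q.2)) ({x ∈ X | |f x| ≤ 1} ×ˢ I) :=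
    k0.fst.prodMk continuousOn_snd
  have k2 : ConicalOn (fun q : E × ℝ => ((Θ.invFun q.1).1, q.2)) ({x ∈ X | |f x| ≤ 1} ×ˢ I) :=
    ((Θ.conical_inv.comp (Sh.conicalOn_fst hP) (fun _ hq => hq.1) continuousOn_fst).linear_comp
      (LinearMap.fst ℝ F ℝ)).prodMk (Sh.conicalOn_snd hP)
  have k3 : MapsTo (fun q : E × ℝ => ((Θ.invFun q.1).1, q.2)) ({x ∈ X | |f x| ≤ 1} ×ˢ I)
      (D ×ˢ I) := fun _ hq => ⟨(Θ.mapsTo_inv hq.1).1, hq.2⟩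
  refine ⟨⟨{x ∈ X | |f x| ≤ 1}, fun x => cl (f x),
    fun q => Θ.toFun ((Θ.invFun q.1).1, q.2)⟩, ⟨⟨⟨hc, hl,
      ⟨hpl.1.mono fun _ hx => hx.1, hpl.2.mono hB fun _ hx => hx.1⟩,
      ⟨Θ.cont.comp k1 k3, Θ.conical.comp k2 k3 k1⟩, fun x _ => Bas1.cl_mem _, ?_, ?_, ?_⟩,
      fun _ hx => hx.1, hpl, fun x hx hn => ofch_cl_out fun h => hn ⟨hx, h⟩⟩,
    fun x hx => ⟨fun h => h.2, fun h => ⟨hx, h⟩⟩, fun _ _ => rfl⟩, fun _ => rfl⟩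
  · intro x hx s hs
    have hm : ((Θ.invFun x).1, s) ∈ D ×ˢ I := ⟨(Θ.mapsTo_inv hx).1, hs⟩
    refine ⟨Θ.mapsTo hm, ?_⟩
    show cl (f (Θ.toFun ((Θ.invFun x).1, s))) = s
    rw [hf _ hm, Bas1.cl_of_mem hs]
  · intro x hx
    have h1 := hf _ (Θ.mapsTo_inv hx)
    rw [Θ.right_inv hx] at h1
    show Θ.toFun ((Θ.invFun x).1, cl (f x)) = x
    rw [h1, Bas1.cl_of_mem (Θ.mapsTo_inv hx).2]
    exact Θ.right_inv hx
  · intro x hx s hs t _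
    have hm : ((Θ.invFun x).1, s) ∈ D ×ˢ I := ⟨(Θ.mapsTo_inv hx).1, hs⟩
    show Θ.toFun ((Θ.invFun (Θ.toFun ((Θ.invFun x).1, s))).1, t) = Θ.toFun ((Θ.invFun x).1, t)
    rw [Θ.left_inv hm]

end P073.Nt
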