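import Vale.Agent.P073Y.Nt.Sk
import Vale.Agent.P073Z.A7a.Sgn

/-!
# Relative interiors of convex sets
-/

open Set Metric Topology Filter

namespace P073.Nt

open P073.Bd (I)
open P073.Fl (Both)

variable {E : Type} [NormedAddCommGroup E] [NormedSpace ℝ E] {Q : Set E}

theorem mem_rel_iff {y : E} : y ∈ intrinsicInterior ℝ Q ↔
    y ∈ affineSpan ℝ Q ∧ ∀ᶠ w in 𝓝 y, w ∈ affineSpan ℝ Q → w ∈ Q := by
  rw [mem_intrinsicInterior]
  constructor
  · rintro ⟨y, hy, rfl⟩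
    refine ⟨y.2, ?_⟩
    rw [mem_interior_iff_mem_nhds, nhds_subtype, mem_comap] at hy
    obtain ⟨U, hU, h⟩ := hy
    filter_upwards [hU] with w hw hw'
    exact h (a := ⟨w, hw'⟩) hw
  · rintro ⟨hy, h⟩
    refine ⟨⟨y, hy⟩, mem_interior_iff_mem_nhds.2 ?_, rfl⟩
    have h1 : ∀ᶠ w : affineSpan ℝ Q in 𝓝 ⟨y, hy⟩, w.1 ∈ affineSpan ℝ Q → w.1 ∈ Q :=
      (continuous_subtype_val.tendsto (⟨y, hy⟩ : affineSpan ℝ Q)).eventually h
    exact h1.mono fun w hw => hw w.2

theorem lineMap_comp (x y : E) (s t : ℝ) :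
    AffineMap.lineMap x (AffineMap.lineMap x y s) t = AffineMap.lineMap x y (t * s) := by
  simp only [AffineMap.lineMap_apply, vsub_eq_sub, vadd_eq_add, add_sub_cancel_right, smul_smul]

/-- the half open segment from a relative interior point -/
theorem lineMap_mem_rel (hQ : Convex ℝ Q) {p z : E} (hp : p ∈ intrinsicInterior ℝ Q) (hz : z ∈ Q)
    {t : ℝ} (ht : t ∈ Ico (0 : ℝ) 1) : AffineMap.lineMap p z t ∈ intrinsicInterior ℝ Q := by
  have h0 : 0 < 1 - t := sub_pos.2 ht.2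
  obtain ⟨hp1, hp2⟩ := mem_rel_iff.1 hp
  have hz' := subset_affineSpan ℝ Q hz
  refine mem_rel_iff.2 ⟨AffineMap.lineMap_mem t hp1 hz', ?_⟩
  have hc : Continuous fun w : E => (AffineMap.lineMap z w (1 - t)⁻¹ : E) := by
    simp only [AffineMap.lineMap_apply, vsub_eq_sub, vadd_eq_add]
    fun_prop
  have h1 : (AffineMap.lineMap z (AffineMap.lineMap p z t : E) (1 - t)⁻¹ : E) = p := by
    rw [← AffineMap.lineMap_apply_one_sub z p, lineMap_comp, inv_mul_cancel₀ h0.ne',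
      AffineMap.lineMap_apply_one]
  have h2 := hc.tendsto (AffineMap.lineMap p z t)
  rw [h1] at h2
  filter_upwards [h2.eventually hp2] with w hw hw'
  have h3 := hQ.lineMap_mem hz (hw (AffineMap.lineMap_mem _ hz' hw'))
    (t := 1 - t) ⟨h0.le, by linarith [ht.1]⟩
  rwa [lineMap_comp, mul_inv_cancel₀ h0.ne', AffineMap.lineMap_apply_one] at h3

theorem mem_rel_of_beyond (hQ : Convex ℝ Q) {p y : E} (hp : p ∈ intrinsicInterior ℝ Q) {t : ℝ}
    (ht : 1 < t) (h : AffineMap.lineMap p y t ∈ Q) : y ∈ intrinsicInterior ℝ Q := by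
  have h0 : 0 < t := by linarith
  have h1 := lineMap_mem_rel hQ hp h (t := t⁻¹) ⟨(inv_pos.2 h0).le, inv_lt_one_of_one_lt₀ ht⟩
  rwa [lineMap_comp, inv_mul_cancel₀ h0.ne', AffineMap.lineMap_apply_one] at h1

theorem lineMap_mem_of_le (hQ : Convex ℝ Q) {x y : E} (hx : x ∈ Q) {s t : ℝ} (hs : 0 < s)
    (hst : s ≤ t) (h : AffineMap.lineMap x y t ∈ Q) : AffineMap.lineMap x y s ∈ Q := by
  have h0 : 0 < t := hs.trans_le hst
  have h1 := hQ.lineMap_mem hx h (t := s / t) ⟨by positivity, (div_le_one h0).2 hst⟩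
  rwa [lineMap_comp, div_mul_cancel₀ _ h0.ne'] at h1

theorem rel_real {J : Set ℝ} (hJ : Convex ℝ J) (h : (interior J).Nonempty) :
    intrinsicInterior ℝ J = interior J :=
  intrinsicInterior_of_top (hJ.interior_nonempty_iff_affineSpan_eq_top.1 h)

theorem rel_I : intrinsicInterior ℝ I = Ioo (-1) 1 := by
  rw [rel_real (convex_Icc _ _) (by rw [interior_Icc]; exact ⟨0, by norm_num⟩), interior_Icc]

theorem rel_Ici (a : ℝ) : intrinsicInterior ℝ (Ici a) = Ioi a := by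
  rw [rel_real (convex_Ici _) (by rw [interior_Ici]; exact nonempty_Ioi), interior_Ici]

variable [FiniteDimensional ℝ E]

/-- the criterion by prolongation of segments -/
theorem mem_rel (hQ : Convex ℝ Q) {y : E} (hy : y ∈ Q)
    (h : ∀ x ∈ Q, ∃ t : ℝ, 1 < t ∧ AffineMap.lineMap x y t ∈ Q) : y ∈ intrinsicInterior ℝ Q := by
  obtain ⟨p, hp⟩ := Set.Nonempty.intrinsicInterior hQ ⟨y, hy⟩
  obtain ⟨t, ht, h1⟩ := h p (intrinsicInterior_subset hp)
  exact mem_rel_of_beyond hQ hp ht h1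

/-- slabs through a relative interior point -/
theorem rel_slab (hQ : Convex ℝ Q) (l : E →ᵃ[ℝ] ℝ) {J : Set ℝ} (hJ : Convex ℝ J) {p : E}
    (hp : p ∈ intrinsicInterior ℝ Q) (hp' : l p ∈ intrinsicInterior ℝ J) :
    intrinsicInterior ℝ {x ∈ Q | l x ∈ J} =
      {x ∈ intrinsicInterior ℝ Q | l x ∈ intrinsicInterior ℝ J} := by
  refine Subset.antisymm (fun y hy => ?_) fun y hy => ?_
  · obtain ⟨t, ht, h1, h2⟩ := exists_beyond (s := {x ∈ Q | l x ∈ J})
      ⟨intrinsicInterior_subset hp, intrinsicInterior_subset hp'⟩ hy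
    rw [AffineMap.apply_lineMap] at h2
    exact ⟨mem_rel_of_beyond hQ hp ht h1, mem_rel_of_beyond hJ hp' ht h2⟩
  · refine mem_rel (hQ.inter (hJ.affine_preimage l))
      ⟨intrinsicInterior_subset hy.1, intrinsicInterior_subset (s := J) hy.2⟩ fun x hx => ?_
    obtain ⟨s, hs, h1⟩ := exists_beyond hx.1 hy.1
    obtain ⟨t, ht, h2⟩ := exists_beyond (s := J) hx.2 hy.2
    have h3 : 1 < min s t := lt_min hs ht
    refine ⟨min s t, h3, lineMap_mem_of_le hQ hx.1 (by linarith) (min_le_left _ _) h1, ?_⟩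
    rw [mem_preimage, AffineMap.apply_lineMap]
    exact lineMap_mem_of_le hJ hx.2 (by linarith) (min_le_right _ _) h2

/-- intermediate values in the relative interior -/
theorem exists_rel_eq (hQ : Convex ℝ Q) (l : E →ᵃ[ℝ] ℝ) {a : ℝ} (h1 : ∃ x ∈ Q, l x < a)
    (h2 : ∃ x ∈ Q, a < l x) : ∃ p ∈ intrinsicInterior ℝ Q, l p = a := by
  obtain ⟨x, hx, h1⟩ := h1
  obtain ⟨y, hy, h2⟩ := h2
  obtain ⟨p, hp⟩ := Set.Nonempty.intrinsicInterior hQ ⟨y, hy⟩
  rcases le_total (l p) a with h | h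
  · have h0 : 0 < l y - l p := by linarith
    refine ⟨_, lineMap_mem_rel hQ hp hy (t := (a - l p) / (l y - l p))
      ⟨div_nonneg (by linarith) h0.le, (div_lt_one h0).2 (by linarith)⟩, ?_⟩
    rw [AffineMap.apply_lineMap, AffineMap.lineMap_apply_ring']
    field_simp
    ring
  · have h0 : 0 < l p - l x := by linarith
    refine ⟨_, lineMap_mem_rel hQ hp hx (t := (l p - a) / (l p - l x))
      ⟨div_nonneg (by linarith) h0.le, (div_lt_one h0).2 (by linarith)⟩, ?_⟩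
    rw [AffineMap.apply_lineMap, AffineMap.lineMap_apply_ring']
    field_simp
    ring

theorem rint : RINT := by
  intro E _ _ _ Q hQ
  refine ⟨fun y hy h => mem_rel hQ hy h, by rw [intrinsicInterior_prod_eq, rel_I],
    fun l => ⟨fun a h1 h2 => ?_, fun h => ?_⟩⟩
  · obtain ⟨p, hp, hp'⟩ := exists_rel_eq hQ l h1 h2
    have h3 := rel_slab hQ l (convex_singleton a) hp
      (by rw [intrinsicInterior_singleton]; exact hp')
    rw [intrinsicInterior_singleton] at h3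
    obtain ⟨x, hx, h1⟩ := h1
    obtain ⟨y, hy, h2⟩ := h2
    obtain ⟨q, hq, hq'⟩ := exists_rel_eq hQ l (a := (a + l y) / 2) ⟨x, hx, by linarith⟩
      ⟨y, hy, by linarith⟩
    have h4 := rel_slab hQ l (convex_Ici a) hq (by rw [rel_Ici, hq', mem_Ioi]; linarith)
    rw [rel_Ici] at h4
    exact ⟨⟨p, h3.ge ⟨hp, hp'⟩⟩, h3, h4⟩
  · obtain ⟨⟨x, hx, h1⟩, y, hy, h2⟩ := h
    obtain ⟨p, hp, hp'⟩ := exists_rel_eq hQ l (a := 0) ⟨x, hx, by linarith⟩ ⟨y, hy, by linarith⟩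
    have h3 := rel_slab hQ l (convex_Icc (-1) 1) hp (by rw [rel_I, hp']; norm_num)
    rw [rel_I] at h3
    simpa only [abs_le, abs_lt, mem_Icc, mem_Ioo] using h3

end P073.Nt
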