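import Vale.Agent.P073Y.Nt.Sk
import Vale.Agent.P073Z.A7a.Sgn
import Vale.Agent.P073Z.A3
import Vale.Agent.P073Z.RCX

/-!
# Natural bands: slices of convex cells, vertices
-/

open Set Metric Topology Filter

namespace P073.Nt

open P073.Fl (lev Both)

namespace Slc

variable {E : Type} [NormedAddCommGroup E] [NormedSpace ℝ E]

/-- from a relative interior point one can move in every direction of the set -/
theorem exists_step {Q : Set E} {p v : E} (hp : p ∈ intrinsicInterior ℝ Q)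
    (hv : v ∈ vectorSpan ℝ Q) : ∃ t : ℝ, 0 < t ∧ t • v + p ∈ Q := by
  obtain ⟨y, hy, rfl⟩ := mem_intrinsicInterior.1 hp
  have hv' : v ∈ (affineSpan ℝ Q).direction := by rwa [direction_affineSpan]
  let f : ℝ → affineSpan ℝ Q := fun t => ⟨t • v +ᵥ y.1,
    AffineSubspace.vadd_mem_of_mem_direction (Submodule.smul_mem _ t hv') y.2⟩
  have hf : Continuous f := by
    refine Continuous.subtype_mk ?_ _
    show Continuous fun t : ℝ => t • v + y.1
    fun_prop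
  have h0 : f 0 = y := Subtype.ext (by simp [f])
  have h1 : ∀ᶠ t in 𝓝 (0 : ℝ), f t ∈ ((↑) : affineSpan ℝ Q → E) ⁻¹' Q :=
    hf.continuousAt.eventually_mem (by rw [h0]; exact mem_interior_iff_mem_nhds.1 hy)
  obtain ⟨t, h2, h3⟩ := ((h1.filter_mono nhdsWithin_le_nhds).and
    (self_mem_nhdsWithin (s := Ioi (0 : ℝ)) (a := 0))).exists
  exact ⟨t, h3, h2⟩

theorem vectorSpan_lev {Q : Set E} (l : E →ᵃ[ℝ] ℝ) {a : ℝ} {p : E}
    (hp : p ∈ intrinsicInterior ℝ Q) (ha : l p = a) :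
    vectorSpan ℝ {x ∈ Q | l x = a} = vectorSpan ℝ Q ⊓ LinearMap.ker l.linear := by
  refine le_antisymm (le_inf (vectorSpan_mono ℝ fun x hx => hx.1) ?_) ?_
  · rw [vectorSpan_def, Submodule.span_le]
    rintro _ ⟨x, hx, y, hy, rfl⟩
    show l.linear (x -ᵥ y) = 0
    rw [l.linearMap_vsub, hx.2, hy.2, vsub_self]
  · rintro v ⟨hv, hk⟩
    obtain ⟨t, ht, h⟩ := exists_step hp hv
    have hk' : l.linear v = 0 := hk
    have h1 : l (t • v + p) = a := by
      rw [← vadd_eq_add, l.map_vadd, map_smul, hk', smul_zero, zero_vadd, ha]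
    have h2 := vsub_mem_vectorSpan ℝ (s := {x ∈ Q | l x = a}) ⟨h, h1⟩
      ⟨intrinsicInterior_subset hp, ha⟩
    have h3 := Submodule.smul_mem _ t⁻¹ h2
    rwa [vsub_eq_sub, add_sub_cancel_right, smul_smul, inv_mul_cancel₀ ht.ne', one_smul] at h3

theorem finrank_lev [FiniteDimensional ℝ E] {Q : Set E} (l : E →ᵃ[ℝ] ℝ) {a : ℝ} {p x : E}
    (hp : p ∈ intrinsicInterior ℝ Q) (ha : l p = a) (hx : x ∈ Q) (hxa : l x < a) :
    Module.finrank ℝ (vectorSpan ℝ {x ∈ Q | l x = a}) + 1 =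
      Module.finrank ℝ (vectorSpan ℝ Q) := by
  let g : vectorSpan ℝ Q →ₗ[ℝ] ℝ := l.linear.domRestrict (vectorSpan ℝ Q)
  have h1 := g.finrank_range_add_finrank_ker
  have hv : p -ᵥ x ∈ vectorSpan ℝ Q := vsub_mem_vectorSpan ℝ (intrinsicInterior_subset hp) hx
  have h2 : g ⟨_, hv⟩ ≠ 0 := by
    show l.linear (p -ᵥ x) ≠ 0
    rw [l.linearMap_vsub, ha, vsub_eq_sub]
    linarith
  have h3 : LinearMap.range g = ⊤ := by
    rw [eq_top_iff]
    intro c _
    refine ⟨(c / g ⟨_, hv⟩) • ⟨_, hv⟩, ?_⟩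
    rw [map_smul, smul_eq_mul, div_mul_cancel₀ _ h2]
  have h4 : LinearMap.ker g =
      (vectorSpan ℝ Q ⊓ LinearMap.ker l.linear).comap (vectorSpan ℝ Q).subtype := by
    ext v
    simp [g]
  rw [h3, h4, finrank_top, Module.finrank_self,
    (Submodule.comapSubtypeEquivOfLe inf_le_left).finrank_eq] at h1
  rw [vectorSpan_lev l hp ha, ← h1, add_comm]

theorem locCone_lev [FiniteDimensional ℝ E] {Q : Set E} (hL : LocCone Q) (l : E →ᵃ[ℝ] ℝ)
    (a b : ℝ) : LocCone {x ∈ Q | l x ∈ Icc a b} :=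
  hL.inter ((locCone_setOf_ge l.continuous_of_finiteDimensional
    (conicalOn_of_affine l locCone_univ.conicalSet) a).inter
    (locCone_setOf_le l.continuous_of_finiteDimensional
      (conicalOn_of_affine l locCone_univ.conicalSet) b))

theorem lev_props [FiniteDimensional ℝ E] {Q : Set E} (hK : IsCompact Q) (hc : Convex ℝ Q)
    (hL : LocCone Q) (l : E →ᵃ[ℝ] ℝ) (a : ℝ) : IsCompact {x ∈ Q | l x = a} ∧
      Convex ℝ {x ∈ Q | l x = a} ∧ LocCone {x ∈ Q | l x = a} := by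
  refine ⟨hK.inter_right (isClosed_eq l.continuous_of_finiteDimensional continuous_const),
    hc.inter ((convex_singleton a).affine_preimage l), ?_⟩
  have := locCone_lev hL l a a
  simpa only [Icc_self, mem_singleton_iff] using this

/-- the relative frontier of a slice -/
theorem frontier_lev [FiniteDimensional ℝ E] {Q : Set E} (hK : IsCompact Q) (l : E →ᵃ[ℝ] ℝ)
    {a : ℝ} (h : intrinsicInterior ℝ {x ∈ Q | l x = a} = {x ∈ intrinsicInterior ℝ Q | l x = a}) :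
    intrinsicFrontier ℝ {x ∈ Q | l x = a} = {x ∈ intrinsicFrontier ℝ Q | l x = a} := by
  have hc : IsClosed {x ∈ Q | l x = a} := hK.isClosed.inter
    (isClosed_eq l.continuous_of_finiteDimensional continuous_const)
  rw [intrinsicFrontier_eq hc, h, intrinsicFrontier_eq hK.isClosed]
  ext x
  exact ⟨fun hx => ⟨⟨hx.1.1, fun h' => hx.2 ⟨h', hx.1.2⟩⟩, hx.1.2⟩,
    fun hx => ⟨⟨hx.1.1, hx.2⟩, fun h' => hx.1.2 h'.1⟩⟩

/-- the maximum of an affine function is attained on the relative frontier -/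
theorem exists_max [FiniteDimensional ℝ E] {Q : Set E} (hK : IsCompact Q) (l : E →ᵃ[ℝ] ℝ)
    (hne : (intrinsicFrontier ℝ Q).Nonempty) {x : E} (hx : x ∈ Q) :
    ∃ y ∈ intrinsicFrontier ℝ Q, l x ≤ l y := by
  obtain ⟨z, hz, hmax⟩ := hK.exists_isMaxOn ⟨x, hx⟩
    l.continuous_of_finiteDimensional.continuousOn
  by_cases hi : z ∈ intrinsicInterior ℝ Q
  · obtain ⟨w, hw⟩ := hne
    have hwQ : w ∈ Q := by
      rw [intrinsicFrontier_eq hK.isClosed] at hw
      exact hw.1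
    obtain ⟨t, ht, h⟩ := exists_beyond hwQ hi
    have h1 : l (AffineMap.lineMap w z t) ≤ l z := hmax h
    have h2 : l x ≤ l z := hmax hx
    rw [AffineMap.apply_lineMap, AffineMap.lineMap_apply_ring] at h1
    exact ⟨w, hw, by nlinarith⟩
  · exact ⟨z, by rw [intrinsicFrontier_eq hK.isClosed]; exact ⟨hz, hi⟩, hmax hx⟩

/-- the maximum on a cell is attained at a vertex -/
theorem exists_vertex (K : RCx E) (g : E → ℝ) (c : K.ι)
    (h : ∀ j, K.cell j ⊆ K.cell c → ∃ (Q : Set E3) (φ : ConHomeo (K.cell j) Q) (l : E3 →ᵃ[ℝ] ℝ),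
      φ.toFun '' K.bd j = intrinsicFrontier ℝ Q ∧ ∀ x ∈ K.cell j, g x = l (φ.toFun x)) :
    ∀ n j, K.dim j = n → K.cell j ⊆ K.cell c → ∀ x ∈ K.cell j,
      ∃ y ∈ K.cell c ∩ K.skel 0, g x ≤ g y := by
  intro n
  induction n using Nat.strong_induction_on with
  | _ n ih =>
    intro j hn hj x hx
    rcases Nat.eq_zero_or_pos n with h0 | h0
    · exact ⟨x, ⟨hj hx, K.cell_subset_skel (by omega) hx⟩, le_rfl⟩
    obtain ⟨Q, φ, l, hb, hl⟩ := h j hj
    have hne : (K.bd j).Nonempty := by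
      obtain ⟨-, ψ, hψ⟩ := K.ball j
      have : Nonempty (Fin (K.dim j)) := ⟨⟨0, by omega⟩⟩
      have h1 : (sphere (0 : Fin (K.dim j) → ℝ) 1).Nonempty :=
        NormedSpace.sphere_nonempty.2 zero_le_one
      rw [← hψ] at h1
      exact h1.of_image
    obtain ⟨y, hy, hxy⟩ := exists_max (φ.isCompact_right (K.isCompact_cell j)) l
      (hb ▸ hne.image _) (φ.mapsTo hx)
    rw [← hb] at hy
    obtain ⟨x', hx', rfl⟩ := hy
    obtain ⟨j', h1, h2, h3⟩ := K.exists_face_bd hx'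
    obtain ⟨z, hz, hz'⟩ := ih _ (hn ▸ h3) j' rfl (h2.trans ((K.bd_subset j).trans hj)) x' h1.1
    refine ⟨z, hz, ?_⟩
    rw [hl x hx]
    rw [hl x' (K.bd_subset j hx')] at hz'
    exact hxy.trans hz'

end Slc

open Slc

theorem slice_of (h1 : RINT) (h2 : DIMU) : SLICE := by
  intro E _ _ _ ι n C S f hC hlin i a hlo hhi
  obtain ⟨Q, φ, l, hc, hS, hf⟩ := hlin
  have hK : IsCompact Q := φ.isCompact_right hC.isCompact
  have hL : LocCone Q := hC.locCone.of_conHomeo hC.isCompact φ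
  obtain ⟨x, hx, hxa⟩ := hlo
  obtain ⟨y, hy, hya⟩ := hhi
  rw [hf i x hx] at hxa
  rw [hf i y hy] at hya
  obtain ⟨⟨p, hp⟩, hi, -⟩ := ((h1 hc).2.2 (l i)).1 a ⟨_, φ.mapsTo hx, hxa⟩ ⟨_, φ.mapsTo hy, hya⟩
  have hp' := hp
  rw [hi] at hp'
  have hQ : ConBall (n + 1) Q (φ.toFun '' S) := by
    have := hC.image φ Subset.rfl
    rwa [φ.image_eq] at this
  have hd := h2 (cvx hK hc hL ⟨_, φ.mapsTo hx⟩) hQ
  have hd' := finrank_lev (l i) hp'.1 hp'.2 (φ.mapsTo hx) hxa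
  obtain ⟨k1, k2, k3⟩ := lev_props hK hc hL (l i) a
  have hD := cvx k1 k2 k3 ⟨p, intrinsicInterior_subset hp⟩
  rw [show Module.finrank ℝ (vectorSpan ℝ {x ∈ Q | l i x = a}) = n from
    Nat.add_right_cancel (hd'.trans hd),
    frontier_lev hK (l i) hi] at hD
  have hB := hD.image φ.symm fun z hz => hz.1
  convert hB using 1
  · ext z
    refine ⟨fun hz => ⟨φ.toFun z, ⟨φ.mapsTo hz.1, (hf i z hz.1).symm.trans hz.2⟩,
      φ.left_inv hz.1⟩, ?_⟩
    rintro ⟨w, hw, rfl⟩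
    have h3 := φ.mapsTo_inv hw.1
    exact ⟨h3, (hf i _ h3).trans (by rw [φ.right_inv hw.1]; exact hw.2)⟩
  · ext z
    refine ⟨fun hz => ⟨φ.toFun z, ⟨hS ▸ mem_image_of_mem _ hz.1,
      (hf i z (hC.1 hz.1)).symm.trans hz.2⟩, φ.left_inv (hC.1 hz.1)⟩, ?_⟩
    rintro ⟨w, ⟨hw, hw'⟩, rfl⟩
    rw [← hS] at hw
    obtain ⟨v, hv, rfl⟩ := hw
    have h3 : φ.symm.toFun (φ.toFun v) = v := φ.left_inv (hC.1 hv)
    rw [h3]
    exact ⟨hv, (hf i v (hC.1 hv)).trans hw'⟩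

theorem bothv : BOTHV := by
  intro E _ _ _ ι K f c hlin i hv
  by_cases hoff : Off (K.cell c) (f i)
  · exact Or.inl hoff
  right
  obtain ⟨x, hx, hx1⟩ : ∃ x ∈ K.cell c, |f i x| ≤ 1 := by
    by_contra hn
    exact hoff fun x hx => not_le.1 fun h => hn ⟨x, hx, h⟩
  obtain ⟨y, hy, hxy⟩ := exists_vertex K (f i) c (fun j hj =>
    let ⟨Q, φ, l, _, h2, h3⟩ := hlin j hj; ⟨Q, φ, l i, h2, h3 i⟩) _ c rfl Subset.rfl x hx
  obtain ⟨z, hz, hxz⟩ := exists_vertex K (fun w => -f i w) c (fun j hj =>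
    let ⟨Q, φ, l, _, h2, h3⟩ := hlin j hj
    ⟨Q, φ, -l i, h2, fun w hw => by rw [h3 i w hw]; rfl⟩) _ c rfl Subset.rfl x hx
  have h1 := abs_le.1 hx1
  refine ⟨⟨z, hz.1, ?_⟩, y, hy.1, ?_⟩
  · rcases lt_abs.1 (hv z hz) with h | h <;> linarith [h1.1, h1.2]
  · rcases lt_abs.1 (hv y hy) with h | h <;> linarith [h1.1, h1.2]

end P073.Nt
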