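import Vale.Agent.P073Y.Nt.Glue
import Vale.Agent.P073Y.Nt.Ofch
import Vale.Agent.P073Y.Nt.Exloc
import Vale.Agent.P073Y.Nt.Glin
import Vale.Agent.P073Y.Nt.Rint
import Vale.Agent.P073Y.Nt.Cext
import Vale.Agent.P073Y.Nt.Excvx
import Vale.Agent.P073Y.Nt.Slice
import Vale.Agent.P073Y.Nt.Exz
import Vale.Agent.P073Y.Nt.Gcvx
import Vale.Agent.P073Y.Nt.Flatb

/-!
# Natural bands: assembly
-/

namespace P073.Nt

theorem exloc : EXLOC := exloc_of ofch

theorem excvx : EXCVX := excvx_of rint cext ofch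

theorem slice : SLICE := slice_of rint dimu

theorem exz : EXZ := exz_of rint excvx nglue

theorem gcvx : GCVX := gcvx_of exz exoff

theorem glin : GLIN := glin_of gcvx dimu

end P073.Nt
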