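import Vale.Agent.P073Y.Nt.Sk
import Vale.Agent.P073Y.Bd.Bas
import Vale.Agent.P073Y.Bd.Glue
import Vale.Agent.P073Z.RCX

/-!
# Natural bands: gluing, uniqueness, local to global
-/

open Set Metric Topology Filter

namespace P073.Nt

open P073.Bd (Band I cl Comm Ext)
open P073.Bd.Bas1 P073.A2

variable {E : Type} [NormedAddCommGroup E] [NormedSpace ℝ E]

theorem cl_out {t : ℝ} (h : 1 < |t|) : cl t = 1 ∨ cl t = -1 := by
  rcases lt_abs.1 h with h | h
  · exact Or.inl (cl_of_ge h.le)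
  · exact Or.inr (cl_of_le (by linarith))

theorem Nb.pl {b : Band E} {X : Set E} {f : E → ℝ} (h : Nb b X f) :
    PLOn (fun x => cl (f x)) X :=
  pl_congr h.on.upl fun x hx => (h.u_eq x hx).symm

theorem Nb.abs_le {b : Band E} {X : Set E} {f : E → ℝ} (h : Nb b X f) {x : E} (hx : x ∈ b.B) :
    |f x| ≤ 1 := (h.mem x (h.on.sub hx)).1 hx

theorem Nb.cut {b : Band E} {X Y : Set E} {f : E → ℝ} (h : Nb b X f) (hYX : Y ⊆ X)
    (hY : IsCompact Y) (hc : LocCone Y) (hk : b.Keeps Y) : Nb (b.cut Y) Y f :=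
  ⟨Bd.Bas2.cut h.on hYX hY hc hk,
    fun x hx => ⟨fun hb => h.abs_le hb.1, fun hf => ⟨(h.mem x (hYX hx)).2 hf, hx⟩⟩,
    fun x hx => h.u_eq x (hYX hx)⟩

theorem Nb.keeps {b : Band E} {X : Set E} {f : E → ℝ} (h : Nb b X f) : b.Keeps X :=
  fun x hx s hs _ => h.on.sub (h.on.ok.Mmem x hx s hs).1

theorem Nb.ext {b a : Band E} {X Y : Set E} {f : E → ℝ} (h : Nb b X f) (h' : Nb a Y f)
    (hYX : Y ⊆ X) (hA : Agree b a) : Ext b a Y :=
  ⟨Subset.antisymm (fun x hx => (h'.mem x hx.2).2 (h.abs_le hx.1)) fun x hx =>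
      ⟨(h.mem x (hYX (h'.on.sub hx))).2 (h'.abs_le hx), h'.on.sub hx⟩,
    fun x hx => (h.u_eq x (hYX hx)).trans (h'.u_eq x hx).symm, hA⟩

theorem nglue : NGLUE := by
  intro E _ _ _ π _ X b f h hM
  classical
  let M : E × ℝ → E := fun q => if h : ∃ a, q.1 ∈ (b a).B then (b h.choose).M q else q.1
  have hMe : ∀ a, ∀ x ∈ (b a).B, ∀ s ∈ I, M (x, s) = (b a).M (x, s) := fun a x hx s hs => by
    have h1 : ∃ a, (x, s).1 ∈ (b a).B := ⟨a, hx⟩
    simp only [M, dif_pos h1]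
    exact hM _ _ x h1.choose_spec hx s hs
  have hu : ∀ a, ∀ x ∈ (b a).B, cl (f x) = (b a).u x := fun a x hx =>
    ((h a).2.u_eq x ((h a).2.on.sub hx)).symm
  have hcl : ∀ a, IsClosed (b a).B := fun a => (h a).2.on.ok.cpt.isClosed
  have hmem : ∀ x ∈ ⋃ a, X a, x ∈ ⋃ a, (b a).B ↔ |f x| ≤ 1 := fun x hx => by
    obtain ⟨a, ha⟩ := mem_iUnion.1 hx
    refine ⟨fun hb => ?_, fun hf => mem_iUnion.2 ⟨a, ((h a).2.mem x ha).2 hf⟩⟩
    obtain ⟨a', ha'⟩ := mem_iUnion.1 hb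
    exact (h a').2.abs_le ha'
  refine ⟨⟨⋃ a, (b a).B, fun x => cl (f x), M⟩, ⟨⟨⟨isCompact_iUnion fun a => (h a).2.on.ok.cpt,
    LocCone.iUnion_finite fun a => (h a).2.on.ok.loc,
    Bd.Glue.pl_iUnion hcl fun a => pl_congr (h a).2.on.ok.upl (hu a), ?_, fun x _ => cl_mem _,
    fun x hx s hs => ?_, fun x hx => ?_, fun x hx s hs t ht => ?_⟩,
    iUnion_mono fun a => (h a).2.on.sub, Bd.Glue.pl_iUnion (fun a => (h a).1) fun a => (h a).2.pl,
    fun x hx hn => cl_out (not_le.1 fun hf => hn ((hmem x hx).2 hf))⟩, hmem, fun _ _ => rfl⟩, hMe⟩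
  · show PLOn M ((⋃ a, (b a).B) ×ˢ I)
    rw [iUnion_prod_const]
    exact Bd.Glue.pl_iUnion (fun a => (hcl a).prod isClosed_Icc) fun a =>
      pl_congr (h a).2.on.ok.Mpl fun q hq => hMe a q.1 hq.1 q.2 hq.2
  · obtain ⟨a, ha⟩ := mem_iUnion.1 hx
    have h1 := (h a).2.on.ok.Mmem x ha s hs
    show M (x, s) ∈ ⋃ a, (b a).B ∧ cl (f (M (x, s))) = s
    rw [hMe a x ha s hs, hu a _ h1.1]
    exact ⟨mem_iUnion.2 ⟨a, h1.1⟩, h1.2⟩
  · obtain ⟨a, ha⟩ := mem_iUnion.1 hx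
    show M (x, cl (f x)) = x
    rw [hMe a x ha _ (cl_mem _), hu a x ha, (h a).2.on.ok.Mid x ha]
  · obtain ⟨a, ha⟩ := mem_iUnion.1 hx
    show M (M (x, s), t) = M (x, t)
    rw [hMe a x ha s hs, hMe a _ ((h a).2.on.ok.Mmem x ha s hs).1 t ht, hMe a x ha t ht,
      (h a).2.on.ok.MM x ha s hs t ht]

theorem unq : UNQ := by
  intro E _ _ a b Y ha hb ka kb h hf x hx hY s hs
  have hxb : x ∈ b.B := (h x hY).1.1 hx
  have h0 := Bd.Bas2.zero_mem_I
  have h1 : ∀ t ∈ I, b.M (x, t) ∈ a.B ∧ b.M (x, t) ∈ Y ∧ a.u (b.M (x, t)) = t := fun t ht => by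
    have h2 := hb.Mmem x hxb t ht
    have h3 := kb x hxb t ht hY
    have h4 := (h _ h3).1.2 h2.1
    exact ⟨h4, h3, ((h _ h3).2 h4).trans h2.2⟩
  have hc : ContinuousOn (fun t : ℝ => a.M (b.M (x, t), 0)) I :=
    ha.Mpl.1.comp ((cont_fibre hb hxb).prodMk continuousOn_const) fun t ht => ⟨(h1 t ht).1, h0⟩
  have hsub : (fun t : ℝ => a.M (b.M (x, t), 0)) '' I ⊆ a.W ∩ Y := by
    rintro _ ⟨t, ht, rfl⟩
    exact ⟨ha.Mmem _ (h1 t ht).1 0 h0, ka _ (h1 t ht).1 0 h0 (h1 t ht).2.1⟩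
  have hss := hf.countable.isTotallyDisconnected _ hsub (isPreconnected_Icc.image _ hc)
  have h5 : a.M (b.M (x, s), 0) = a.M (b.M (x, b.u x), 0) :=
    hss ⟨s, hs, rfl⟩ ⟨_, hb.urange x hxb, rfl⟩
  rw [hb.Mid x hxb] at h5
  rw [← ha.MM x hx 0 h0 s hs, ← h5, ha.MM _ (h1 s hs).1 0 h0 s hs]
  have h6 := ha.Mid _ (h1 s hs).1
  rwa [(h1 s hs).2.2] at h6

theorem gdisj : GDISJ := by
  intro E _ _ _ ι C S f h hd a ha
  choose b hb using fun i => h i (a i) (ha i)
  refine ⟨b, hb, fun i j hij => comm_of_disjoint (hb i).1.on.ok (disjoint_left.2 fun x hx hx' => ?_)⟩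
  exact not_le.2 (hd i j hij x ((hb i).1.on.sub hx) ((hb i).1.abs_le hx)) ((hb j).1.abs_le hx')

/-- the empty band -/
theorem nb_empty {C : Set E} {f : E → ℝ} (hf : PLOn (fun x => cl (f x)) C) (h : Off C f) :
    Nb ⟨∅, fun x => cl (f x), fun q => q.1⟩ C f := by
  refine ⟨⟨⟨isCompact_empty, locCone_empty, ⟨continuousOn_empty _, fun _ hx => hx.elim⟩,
    ⟨continuousOn_fst, fun _ hx => hx.1.elim⟩, fun _ hx => hx.elim, fun _ hx => hx.elim,
    fun _ hx => hx.elim, fun _ hx => hx.elim⟩, empty_subset _, hf,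
    fun x hx _ => cl_out (h x hx)⟩,
    fun x hx => ⟨fun h' => h'.elim, fun h' => absurd (h x hx) (not_lt.2 h')⟩, fun _ _ => rfl⟩

theorem exoff : EXOFF := by
  intro E _ _ C S f hS hC hf h a ha
  refine ⟨_, nb_empty (pl_of_local fun x hx => ⟨_, pl_const (cl (f x)) hC, ?_⟩) h, fun x hx =>
    absurd (h x (hS (ha.on.sub hx))) (not_lt.2 (ha.abs_le hx))⟩
  rcases lt_abs.1 (h x hx) with h2 | h2
  · filter_upwards [hf x hx (Ioi_mem_nhds h2)] with y hy
    rw [cl_of_ge (le_of_lt hy), cl_of_ge h2.le]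
  · have h3 : f x < -1 := by linarith
    filter_upwards [hf x hx (Iio_mem_nhds h3)] with y hy
    rw [cl_of_le (le_of_lt hy), cl_of_le h3.le]

theorem gloc : GLOC := by
  intro E _ _ ι C S f l hS h hc a ha
  refine ⟨l, fun i => ⟨(h i).1, fun x hx s hs => ?_⟩, hc⟩
  have h1 := (ha i).on.sub hx
  refine unq (h i).1.on.ok (ha i).on.ok (h i).2.1 (ha i).keeps (fun y hy => ⟨?_, fun _ => ?_⟩)
    (h i).2.2 x (((h i).1.mem x (hS h1)).2 ((ha i).abs_le hx)) h1 s hs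
  · rw [(h i).1.mem y (hS hy), (ha i).mem y hy]
  · rw [(h i).1.u_eq y (hS hy), (ha i).u_eq y hy]

/-- commutation can be checked on pieces -/
theorem comm_of_pieces {π : Type} {X : π → Set E} {b b' : π → Band E} {g g' : Band E}
    {f f' : E → ℝ} (hb : ∀ a, Nb (b a) (X a) f) (hb' : ∀ a, Nb (b' a) (X a) f')
    (hg : Nb g (⋃ a, X a) f) (hg' : Nb g' (⋃ a, X a) f') (hA : ∀ a, Agree g (b a))
    (hA' : ∀ a, Agree g' (b' a)) (hc : ∀ a, Comm (b a) (b' a)) (hc' : ∀ a, Comm (b' a) (b a)) :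
    Comm g g' := by
  intro x hx s hs
  obtain ⟨a, ha⟩ := mem_iUnion.1 (hg.on.sub hx)
  have hxa : x ∈ (b a).B := ((hb a).mem x ha).2 (hg.abs_le hx)
  have hy := ((hb a).on.ok.Mmem x hxa s hs).1
  have e : ∀ y ∈ X a, y ∈ g'.B ↔ y ∈ (b' a).B := fun y hy => by
    rw [hg'.mem y (mem_iUnion.2 ⟨a, hy⟩), (hb' a).mem y hy]
  have eu : ∀ y ∈ X a, g'.u y = (b' a).u y := fun y hy => by
    rw [hg'.u_eq y (mem_iUnion.2 ⟨a, hy⟩), (hb' a).u_eq y hy]
  obtain ⟨h1, h2⟩ := hc a x hxa s hs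
  rw [hA a x hxa s hs, e _ ((hb a).on.sub hy), e x ha, eu _ ((hb a).on.sub hy), eu x ha]
  refine ⟨h1, fun hx' => ⟨(h2 hx').1, fun t ht => ?_⟩⟩
  rw [hA' a _ (h1.2 hx') t ht, hA' a x hx' t ht, hA a _ ((hc' a x hx' t ht).1.2 hxa) s hs]
  exact (h2 hx').2 t ht

theorem natg : NATG := by
  intro E _ _ _ ι K _ fro U f r hfro hU hsub hr hrc hG
  let X : ℕ → Set E := fun k => U ∪ ⋃ c, ⋃ (_ : c ∈ fro ∧ K.dim c < k), K.cell c
  have hXc : ∀ k, IsClosed (X k) := fun k => hU.union (isClosed_iUnion_of_finite fun c =>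
    isClosed_iUnion_of_finite fun _ => K.isClosed_cell c)
  have key : ∀ k, ∃ b : ι → Band E, (∀ i, Nb (b i) (X k) (f i) ∧ (∀ c, (b i).Keeps (K.cell c)) ∧
      Agree (b i) (r i)) ∧ ∀ i j, i ≠ j → Comm (b i) (b j) := by
    intro k
    induction k with
    | zero =>
      have : X 0 = U := by simp [X]
      exact ⟨r, fun i => ⟨this ▸ (hr i).1, (hr i).2, fun _ _ _ _ => rfl⟩, hrc⟩
    | succ k ih =>
      obtain ⟨b, hb, hbc⟩ := ih
      let T := {c // c ∈ fro ∧ K.dim c = k ∧ ¬ K.cell c ⊆ U}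
      have hbd : ∀ c : T, K.bd c ⊆ X k := fun c x hx => by
        obtain ⟨j, h1, h2, h3⟩ := K.bdry c x hx
        rcases hfro c c.2.1 j (h2.trans (K.bd_subset _)) with h | h
        · exact Or.inr (mem_iUnion₂.2 ⟨j, ⟨h, c.2.2.1 ▸ h3⟩, h1.1⟩)
        · exact Or.inl (h h1.1)
      have hin : ∀ c : T, ∀ x ∈ K.cell c, x ∈ X k → x ∈ K.bd c := fun c x hx hX => by
        by_contra hn
        rcases hX with h | h
        · exact c.2.2.2 ((hsub.cell_subset ⟨hx, hn⟩ ⟨K.cell_subset_carrier _ hx, h⟩).trans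
            inter_subset_right)
        · obtain ⟨j, hj, h1⟩ := mem_iUnion₂.1 h
          have := K.dim_le (K.cell_subset_of_mem ⟨hx, hn⟩ h1)
          have h2 := c.2.2.1
          omega
      have hkb : ∀ i (c : T), (b i).Keeps (K.bd c) := fun i c x hx s hs hc => by
        obtain ⟨j, h1, h2, -⟩ := K.bdry c x hc
        exact h2 ((hb i).2.1 j x hx s hs h1.1)
      choose β hβ hβc using fun c : T => hG c c.2.1 c.2.2.2 (fun i => (b i).cut (K.bd c))
        fun i => (hb i).1.cut (hbd c) (K.isCompact_bd _) (K.locCone_bd _) (hkb i c)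
      have hβb : ∀ (c : T) i, ∀ x ∈ (β c i).B, x ∈ K.bd c → ∀ s ∈ I,
          (β c i).M (x, s) = (b i).M (x, s) := fun c i x hx hc s hs =>
        (hβ c i).2 x ⟨((hb i).1.mem x (hbd c hc)).2 ((hβ c i).1.abs_le hx), hc⟩ s hs
      let Y : Option T → Set E := fun o => o.elim (X k) fun c => K.cell c
      let γ : Option T → ι → Band E := fun o => o.elim b β
      have hY : ⋃ o, Y o = X (k + 1) := by
        refine Subset.antisymm (iUnion_subset fun o => ?_) fun x hx => ?_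
        · rcases o with _ | c
          · exact union_subset_union_right _ (iUnion₂_subset fun c hc =>
              subset_iUnion₂_of_subset c ⟨hc.1, by omega⟩ Subset.rfl)
          · exact fun x hx => Or.inr (mem_iUnion₂.2 ⟨c.1, ⟨c.2.1, by have := c.2.2.1; omega⟩, hx⟩)
        · by_cases h : x ∈ X k
          · exact mem_iUnion.2 ⟨none, h⟩
          · obtain ⟨c, hc, h1⟩ := mem_iUnion₂.1 (hx.resolve_left fun h' => h (Or.inl h'))
            refine mem_iUnion.2 ⟨some ⟨c, hc.1, ?_, fun h' => h (Or.inl (h' h1))⟩, h1⟩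
            by_contra hn
            exact h (Or.inr (mem_iUnion₂.2 ⟨c, ⟨hc.1, by omega⟩, h1⟩))
      have hγ : ∀ o i, Nb (γ o i) (Y o) (f i) := fun o i => by
        rcases o with _ | c
        exacts [(hb i).1, (hβ c i).1]
      have hγc : ∀ o i j, i ≠ j → Comm (γ o i) (γ o j) := fun o => by
        rcases o with _ | c
        exacts [hbc, hβc c]
      choose g hg hA using fun i => nglue Y (fun o => γ o i) (f i) (fun o => ⟨by
        rcases o with _ | c
        exacts [hXc k, K.isClosed_cell _], hγ o i⟩) (by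
        rintro (_ | c) (_ | c') x hx hx' s hs
        · rfl
        · exact (hβb c' i x hx' (hin c' x ((hβ c' i).1.on.sub hx') ((hb i).1.on.sub hx)) s hs).symm
        · exact hβb c i x hx (hin c x ((hβ c i).1.on.sub hx) ((hb i).1.on.sub hx')) s hs
        · by_cases hcc : c = c'
          · rw [hcc]
          · have h1 := (hβ c i).1.on.sub hx
            have h2 := (hβ c' i).1.on.sub hx'
            have h3 : c.1 ≠ c'.1 := fun h => hcc (Subtype.ext h)
            have h4 : K.dim c = K.dim c' := c.2.2.1.trans c'.2.2.1.symm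
            exact (hβb c i x hx (K.inter_subset_bd h3 h4.ge ⟨h1, h2⟩) s hs).trans
              (hβb c' i x hx' (K.inter_subset_bd h3.symm h4.le ⟨h2, h1⟩) s hs).symm)
      refine ⟨g, fun i => ⟨hY ▸ hg i, fun c x hx s hs hc => ?_, fun x hx s hs => ?_⟩,
        fun i j hij => comm_of_pieces (fun o => hγ o i) (fun o => hγ o j) (hg i) (hg j) (hA i)
          (hA j) (fun o => hγc o i j hij) fun o => hγc o j i hij.symm⟩
      · by_cases h : x ∈ X k
        · have h1 := ((hb i).1.mem x h).2 ((hg i).abs_le hx)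
          rw [hA i none x h1 s hs]
          exact (hb i).2.1 c x h1 s hs hc
        · obtain ⟨o, ho⟩ := mem_iUnion.1 ((hg i).on.sub hx)
          rcases o with _ | d
          · exact absurd ho h
          · have h1 := ((hβ d i).1.mem x ho).2 ((hg i).abs_le hx)
            rw [hA i (some d) x h1 s hs]
            exact K.cell_subset_of_mem ⟨ho, fun h' => h (hbd d h')⟩ hc
              ((hβ d i).1.keeps x h1 s hs ho)
      · rw [hA i none x (((hb i).1.mem x (Or.inl ((hr i).1.on.sub hx))).2 ((hr i).1.abs_le hx))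
          s hs]
        exact (hb i).2.2 x hx s hs
  obtain ⟨N, hN⟩ := (finite_range K.dim).bddAbove
  obtain ⟨b, hb, hbc⟩ := key (N + 1)
  have hX : X (N + 1) = U ∪ ⋃ c ∈ fro, K.cell c := by
    refine congrArg (U ∪ ·) (iUnion_congr fun c => ?_)
    have : K.dim c < N + 1 := Nat.lt_succ_of_le (hN ⟨c, rfl⟩)
    simp [this]
  exact ⟨b, fun i => ⟨hX ▸ (hb i).1, (hb i).2.1,
    (hb i).1.ext (hr i).1 subset_union_left (hb i).2.2⟩, hbc⟩

theorem natg0 : NATG0 := by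
  intro E _ _ _ ι K _ fro f h hG
  obtain ⟨b, hb, hc⟩ := natg K fro (U := ∅) f (fun i => ⟨∅, fun x => cl (f i x), fun q => q.1⟩)
    (fun c hc j hj => Or.inl (h c hc j hj)) isClosed_empty (by simpa using K.sub_empty)
    (fun i => ⟨nb_empty ⟨continuousOn_empty _, fun _ hx => hx.elim⟩ fun _ hx => hx.elim,
      fun _ _ hx => hx.elim⟩) (fun _ _ _ _ hx => hx.elim) fun c hc _ => hG c hc
  exact ⟨b, fun i => ⟨by simpa using (hb i).1, (hb i).2.1⟩, hc⟩

end P073.Nt
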